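import Vale.Agent.P157.Low.SphFacts
import Vale.Agent.P157.Low.SphLaw
import Vale.Agent.P157.Low.Stein

/-!
P157, sphere: integration by parts along the projection of a fixed direction.
-/

namespace Vale.Agent.P157F

open MeasureTheory ProbabilityTheory Filter Vale.Agent.P157 Vale.Agent.P157.Low
open scoped RealInnerProductSpace Topology

variable {N : ℕ} {G : Sp (N + 1) → ℝ} {b : Sp (N + 1)}

/-- A function of the direction, damped at the origin. -/
noncomputable def radFn (G : Sp (N + 1) → ℝ) (x : Sp (N + 1)) : ℝ :=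
  ‖x‖ ^ 2 / (1 + ‖x‖ ^ 2) * G (‖x‖⁻¹ • x)

/-- Its derivative along `b`. -/
noncomputable def radDer (G : Sp (N + 1) → ℝ) (b x : Sp (N + 1)) : ℝ :=
  2 * ⟪x, b⟫ / (1 + ‖x‖ ^ 2) ^ 2 * G (‖x‖⁻¹ • x) +
    ‖x‖ / (1 + ‖x‖ ^ 2) *
      fderiv ℝ G (‖x‖⁻¹ • x) (b - ⟪‖x‖⁻¹ • x, b⟫ • (‖x‖⁻¹ • x))

lemma norm_unit_smul_le (x : Sp (N + 1)) : ‖‖x‖⁻¹ • x‖ ≤ 1 := by
  rcases eq_or_ne x 0 with h | h
  · simp [h]
  · simp [norm_smul, norm_ne_zero_iff.2 h]

lemma exists_ball_bound (hG : ContDiff ℝ 1 G) :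
    ∃ M, ∀ u : Sp (N + 1), ‖u‖ ≤ 1 → |G u| ≤ M ∧ ‖fderiv ℝ G u‖ ≤ M := by
  have hK := isCompact_closedBall (0 : Sp (N + 1)) 1
  obtain ⟨a, ha⟩ := hK.exists_bound_of_continuousOn hG.continuous.continuousOn
  obtain ⟨c, hc⟩ := hK.exists_bound_of_continuousOn (hG.continuous_fderiv one_ne_zero).continuousOn
  refine ⟨max a c, fun u hu => ?_⟩
  have hu' : u ∈ Metric.closedBall (0 : Sp (N + 1)) 1 := mem_closedBall_zero_iff.2 hu
  exact ⟨(ha u hu').trans (le_max_left _ _), (hc u hu').trans (le_max_right _ _)⟩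

lemma hasDerivAt_radFn (hG : ContDiff ℝ 1 G) (x : Sp (N + 1)) :
    HasDerivAt (fun t : ℝ => radFn G (x + t • b)) (radDer G b x) 0 := by
  obtain ⟨M, hM⟩ := exists_ball_bound hG
  rcases eq_or_ne x 0 with rfl | hx
  · have e : radDer G b 0 = 0 := by simp [radDer]
    rw [e, hasDerivAt_iff_tendsto_slope_zero]
    refine squeeze_zero_norm (a := fun t : ℝ => |t| * (‖b‖ ^ 2 * M)) (fun t => ?_) ?_
    · have h0 : radFn G (0 + (0 : ℝ) • b) = 0 := by simp [radFn]
      rw [h0, sub_zero, smul_eq_mul, zero_add, zero_add, Real.norm_eq_abs, abs_mul, abs_inv]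
      rcases eq_or_ne t 0 with rfl | ht
      · simp
      have hM0 : 0 ≤ M := (abs_nonneg _).trans (hM 0 (by simp)).1
      have h1 : |radFn G (t • b)| ≤ |t| ^ 2 * (‖b‖ ^ 2 * M) := by
        rw [radFn, abs_mul, ← mul_assoc, ← mul_pow, ← Real.norm_eq_abs t, ← norm_smul]
        refine mul_le_mul ?_ (hM _ (norm_unit_smul_le _)).1 (abs_nonneg _) (sq_nonneg _)
        rw [abs_of_nonneg (by positivity)]
        exact div_le_self (sq_nonneg _) (by nlinarith [sq_nonneg ‖t • b‖])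
      refine (mul_le_mul_of_nonneg_left h1 (by positivity)).trans_eq ?_
      field_simp
    · have h : Tendsto (fun t : ℝ => |t| * (‖b‖ ^ 2 * M)) (𝓝 0) (𝓝 0) := by
        simpa using (continuous_abs.tendsto (0 : ℝ)).mul_const (‖b‖ ^ 2 * M)
      exact h.mono_left nhdsWithin_le_nhds
  · have hr : ‖x‖ ≠ 0 := norm_ne_zero_iff.2 hx
    have hl : HasDerivAt (fun t : ℝ => x + t • b) b 0 := by
      simpa using ((hasDerivAt_id' (0 : ℝ)).smul_const b).const_add x
    have hsq : HasDerivAt (fun t : ℝ => ‖x + t • b‖ ^ 2) (2 * ⟪x, b⟫) 0 := by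
      simpa using hl.norm_sq
    have hn : HasDerivAt (fun t : ℝ => ‖x + t • b‖) (⟪x, b⟫ / ‖x‖) 0 := by
      have h := hsq.sqrt (by simpa using pow_ne_zero 2 hr)
      simp only [Real.sqrt_sq (norm_nonneg _), zero_smul, add_zero] at h
      refine h.congr_deriv ?_
      field_simp
    have hu : HasDerivAt (fun t : ℝ => ‖x + t • b‖⁻¹ • (x + t • b))
        (‖x‖⁻¹ • (b - ⟪‖x‖⁻¹ • x, b⟫ • (‖x‖⁻¹ • x))) 0 := by
      refine ((hn.inv (by simpa using hr)).smul hl).congr_deriv ?_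
      simp only [zero_smul, add_zero, smul_sub, smul_smul, real_inner_smul_left, Pi.inv_apply]
      rw [neg_div, neg_smul, ← sub_eq_add_neg]
      congr 2
      · field_simp
    have hGu : HasDerivAt (fun t : ℝ => G (‖x + t • b‖⁻¹ • (x + t • b)))
        (fderiv ℝ G (‖x‖⁻¹ • x) (‖x‖⁻¹ • (b - ⟪‖x‖⁻¹ • x, b⟫ • (‖x‖⁻¹ • x)))) 0 := by
      have h := (hG.differentiable one_ne_zero (‖x + (0 : ℝ) • b‖⁻¹ • (x + (0 : ℝ) • b))).hasFDerivAt
      simpa only [Function.comp_def, zero_smul, add_zero] using h.comp_hasDerivAt (0 : ℝ) hu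
    have hψ := hsq.fun_div (hsq.const_add 1) (by positivity)
    refine (hψ.fun_mul hGu).congr_deriv ?_
    simp only [radDer, zero_smul, add_zero, map_smul, smul_eq_mul]
    field_simp
    ring

/-- Length and direction of a Gaussian vector factor. -/
lemma integral_radial (A : ℝ → ℝ) (hA : Measurable A) (F : Sp (N + 1) → ℝ) (hF : Measurable F) :
    ∫ g, A ‖g‖ * F (‖g‖⁻¹ • g) ∂stdGaussian (Sp (N + 1)) =
      (∫ r, A r ∂normLaw N) * ∫ θ, F (θ : Sp (N + 1)) ∂sphereMeasure (N + 1) := by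
  rw [← integral_prod_mul, ← map_norm_dir, integral_map (f := fun z : ℝ × Sph (N + 1) => A z.1 * F z.2)
    (measurable_norm.prodMk measurable_dir).aemeasurable
    ((hA.comp measurable_fst).mul
      (hF.comp (measurable_subtype_coe.comp measurable_snd))).aestronglyMeasurable]
  refine integral_congr_ae ?_
  filter_upwards [ae_ne_zero] with g hg
  simp [dir, hg]

/-- The radial identity. -/
lemma sphere_radial_eq (hG : ContDiff ℝ 1 G) (hb : ‖b‖ = 1) :
    ((∫ r, r ^ 3 / (1 + r ^ 2) ∂normLaw N) - ∫ r, 2 * r / (1 + r ^ 2) ^ 2 ∂normLaw N) *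
        ∫ θ, ⟪(θ : Sp (N + 1)), b⟫ * G θ ∂sphereMeasure (N + 1) =
      (∫ r, r / (1 + r ^ 2) ∂normLaw N) *
        ∫ θ, fderiv ℝ G (θ : Sp (N + 1)) (b - ⟪(θ : Sp (N + 1)), b⟫ • (θ : Sp (N + 1)))
          ∂sphereMeasure (N + 1) := by
  obtain ⟨M, hM⟩ := exists_ball_bound hG
  have hM0 : 0 ≤ M := (abs_nonneg _).trans (hM 0 (by simp)).1
  have hu : Measurable fun x : Sp (N + 1) => ‖x‖⁻¹ • x := measurable_norm.inv.smul measurable_id
  have hD : Measurable fun u : Sp (N + 1) => fderiv ℝ G u (b - ⟪u, b⟫ • u) :=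
    ((hG.continuous_fderiv one_ne_zero).clm_apply (by fun_prop)).measurable
  have hGm := hG.continuous.measurable
  have hHm : Measurable (radFn G) :=
    (Measurable.div (by fun_prop) (by fun_prop)).mul (hGm.comp hu)
  have hm1 : Measurable fun x : Sp (N + 1) =>
      2 * ⟪x, b⟫ / (1 + ‖x‖ ^ 2) ^ 2 * G (‖x‖⁻¹ • x) :=
    (Measurable.div (by fun_prop) (by fun_prop)).mul (hGm.comp hu)
  have hm2 : Measurable fun x : Sp (N + 1) => ‖x‖ / (1 + ‖x‖ ^ 2) *
      fderiv ℝ G (‖x‖⁻¹ • x) (b - ⟪‖x‖⁻¹ • x, b⟫ • (‖x‖⁻¹ • x)) :=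
    (Measurable.div (by fun_prop) (by fun_prop)).mul (hD.comp hu)
  have hb1 : ∀ x : Sp (N + 1), |2 * ⟪x, b⟫ / (1 + ‖x‖ ^ 2) ^ 2 * G (‖x‖⁻¹ • x)| ≤ 2 * M := fun x => by
    rw [abs_mul, abs_div, abs_mul, abs_two, abs_of_pos (by positivity : (0 : ℝ) < (1 + ‖x‖ ^ 2) ^ 2)]
    refine mul_le_mul ?_ (hM _ (norm_unit_smul_le x)).1 (abs_nonneg _) (by norm_num)
    rw [div_le_iff₀ (by positivity)]
    have h := abs_real_inner_le_norm x b
    rw [hb, mul_one] at h
    nlinarith [sq_nonneg (‖x‖ - 1), sq_nonneg ‖x‖, norm_nonneg x]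
  have hb2 : ∀ x : Sp (N + 1), |‖x‖ / (1 + ‖x‖ ^ 2) *
      fderiv ℝ G (‖x‖⁻¹ • x) (b - ⟪‖x‖⁻¹ • x, b⟫ • (‖x‖⁻¹ • x))| ≤ 2 * M := fun x => by
    rw [abs_mul, abs_of_nonneg (a := ‖x‖ / _) (by positivity), ← one_mul (2 * M)]
    refine mul_le_mul ?_ ?_ (abs_nonneg _) zero_le_one
    · rw [div_le_one (by positivity)]
      nlinarith [sq_nonneg (‖x‖ - 1), norm_nonneg x]
    · set u := ‖x‖⁻¹ • x
      rw [← Real.norm_eq_abs, mul_comm]
      refine ((fderiv ℝ G u).le_opNorm _).trans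
        (mul_le_mul (hM u (norm_unit_smul_le x)).2 ?_ (norm_nonneg _) hM0)
      refine (norm_sub_le _ _).trans ?_
      rw [hb, norm_smul, Real.norm_eq_abs]
      have hu1 : ‖u‖ ≤ 1 := norm_unit_smul_le x
      have h := (abs_real_inner_le_norm u b).trans_eq (by rw [hb, mul_one])
      nlinarith [abs_nonneg ⟪u, b⟫, norm_nonneg u]
  have hHb : ∀ x, |radFn G x| ≤ 4 * M := fun x => by
    rw [radFn, abs_mul, abs_of_nonneg (a := ‖x‖ ^ 2 / _) (by positivity)]
    refine (mul_le_mul (b := 1) ?_ (hM _ (norm_unit_smul_le x)).1 (abs_nonneg _) zero_le_one).trans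
      (by linarith)
    rw [div_le_one (by positivity)]
    linarith
  have h := stein_unit hb hHm (G' := radDer G b) (hm1.add hm2) (fun g => hasDerivAt_radFn hG g) hHb
    fun x => (abs_add_le _ _).trans ((add_le_add (hb1 x) (hb2 x)).trans_eq (by ring))
  have e1 : (fun g : Sp (N + 1) => ⟪g, b⟫ * radFn G g) =
      fun g => ‖g‖ ^ 3 / (1 + ‖g‖ ^ 2) * (⟪‖g‖⁻¹ • g, b⟫ * G (‖g‖⁻¹ • g)) := by
    funext g
    rcases eq_or_ne g 0 with rfl | hg
    · simp [radFn]
    · have := norm_ne_zero_iff.2 hg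
      rw [radFn, real_inner_smul_left]
      field_simp
  have e2 : (fun g : Sp (N + 1) => 2 * ⟪g, b⟫ / (1 + ‖g‖ ^ 2) ^ 2 * G (‖g‖⁻¹ • g)) =
      fun g => 2 * ‖g‖ / (1 + ‖g‖ ^ 2) ^ 2 * (⟪‖g‖⁻¹ • g, b⟫ * G (‖g‖⁻¹ • g)) := by
    funext g
    rcases eq_or_ne g 0 with rfl | hg
    · simp
    · have := norm_ne_zero_iff.2 hg
      rw [real_inner_smul_left]
      field_simp
  have hci : Measurable fun u : Sp (N + 1) => ⟪u, b⟫ * G u :=
    Measurable.mul (by fun_prop) hGm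
  have r1 := integral_radial (N := N) (fun r => r ^ 3 / (1 + r ^ 2)) (by fun_prop) _ hci
  have r2 := integral_radial (N := N) (fun r => 2 * r / (1 + r ^ 2) ^ 2) (by fun_prop) _ hci
  have r3 := integral_radial (N := N) (fun r => r / (1 + r ^ 2)) (by fun_prop) _ hD
  simp only [radDer] at h
  rw [integral_add (Integrable.of_bound hm1.aestronglyMeasurable _ (Eventually.of_forall fun x =>
      (Real.norm_eq_abs _).trans_le (hb1 x)))
    (Integrable.of_bound hm2.aestronglyMeasurable _ (Eventually.of_forall fun x =>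
      (Real.norm_eq_abs _).trans_le (hb2 x))), e1, e2, r1, r2, r3] at h
  linarith

/-- The second moment of one coordinate of a uniform point. -/
lemma integral_sphere_inner_sq (hb : ‖b‖ = 1) :
    ((N : ℝ) + 1) * ∫ θ, ⟪(θ : Sp (N + 1)), b⟫ ^ 2 ∂sphereMeasure (N + 1) = 1 := by
  have h := integral_radial (N := N) (fun r => r ^ 2) (by fun_prop) (fun u => ⟪u, b⟫ ^ 2) (by fun_prop)
  have e : ∀ g : Sp (N + 1), ‖g‖ ^ 2 * ⟪‖g‖⁻¹ • g, b⟫ ^ 2 = ⟪g, b⟫ ^ 2 := fun g => by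
    rcases eq_or_ne g 0 with rfl | hg
    · simp
    · have := norm_ne_zero_iff.2 hg
      rw [real_inner_smul_left]
      field_simp
  have h2 : ∫ r, r ^ 2 ∂normLaw N = (N : ℝ) + 1 := by
    rw [normLaw, integral_map measurable_norm.aemeasurable (by fun_prop)]
    simp only [EuclideanSpace.real_norm_sq_eq]
    have hi : ∀ i : Fin (N + 1), ∀ g : Sp (N + 1), g i ^ 2 = ⟪g, EuclideanSpace.single i 1⟫ ^ 2 :=
      fun i g => by simp [EuclideanSpace.inner_single_right]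
    rw [integral_finsetSum]
    · simp only [hi, integral_inner_sq]
      simp
    · intro i _
      refine (integrable_norm_pow (E := Sp (N + 1)) 2).mono' (by fun_prop) (Eventually.of_forall fun g => ?_)
      rw [Real.norm_eq_abs, abs_pow]
      exact pow_le_pow_left₀ (abs_nonneg _) (by simpa using PiLp.norm_apply_le g i) 2
  simp only [e, h2, integral_inner_sq, hb, one_pow] at h
  exact h.symm

/-- Integration by parts on the unit sphere along the projection of a unit vector. -/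
theorem sphere_ibp (hG : ContDiff ℝ 1 G) (hb : ‖b‖ = 1) :
    ∫ θ, fderiv ℝ G (θ : Sp (N + 1)) (b - ⟪(θ : Sp (N + 1)), b⟫ • (θ : Sp (N + 1)))
        ∂sphereMeasure (N + 1) =
      N * ∫ θ, ⟪(θ : Sp (N + 1)), b⟫ * G θ ∂sphereMeasure (N + 1) := by
  set c := ∫ r, r / (1 + r ^ 2) ∂normLaw N with hc
  set a := (∫ r, r ^ 3 / (1 + r ^ 2) ∂normLaw N) - ∫ r, 2 * r / (1 + r ^ 2) ^ 2 ∂normLaw N with ha
  have hcpos : 0 < c := by
    have he : c = ∫ g, ‖g‖ / (1 + ‖g‖ ^ 2) ∂stdGaussian (Sp (N + 1)) := by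
      rw [hc, normLaw, integral_map measurable_norm.aemeasurable
        (Measurable.aestronglyMeasurable (by fun_prop))]
    rw [he, integral_pos_iff_support_of_nonneg (fun g => by positivity)]
    · refine pos_iff_ne_zero.2 fun h0 => ?_
      have h1 : ∀ᵐ g ∂stdGaussian (Sp (N + 1)), g = 0 := by
        filter_upwards [measure_eq_zero_iff_ae_notMem.1 h0] with g hg
        by_contra hne
        exact hg (div_ne_zero (norm_ne_zero_iff.2 hne) (by positivity))
      obtain ⟨g, hg, hg'⟩ := (h1.and ae_ne_zero).exists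
      exact hg' hg
    · refine Integrable.of_bound (Measurable.aestronglyMeasurable (by fun_prop)) 1
        (Eventually.of_forall fun g => ?_)
      rw [Real.norm_eq_abs, abs_of_nonneg (by positivity), div_le_one (by positivity)]
      nlinarith [sq_nonneg (‖g‖ - 1), norm_nonneg g]
  have key := sphere_radial_eq hG hb
  rw [← hc, ← ha] at key
  have h0 := sphere_radial_eq (N := N) (G := fun u => ⟪u, b⟫) (contDiff_id.inner ℝ contDiff_const) hb
  rw [← hc, ← ha] at h0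
  have hd : ∀ θ : Sph (N + 1), fderiv ℝ (fun u : Sp (N + 1) => ⟪u, b⟫) (θ : Sp (N + 1))
      (b - ⟪(θ : Sp (N + 1)), b⟫ • (θ : Sp (N + 1))) = 1 - ⟪(θ : Sp (N + 1)), b⟫ ^ 2 := fun θ => by
    rw [fderiv_inner_apply ℝ differentiableAt_fun_id (differentiableAt_const b)]
    simp [inner_sub_left, real_inner_smul_left, hb, pow_two]
  have hsq : ∀ θ : Sph (N + 1), ⟪(θ : Sp (N + 1)), b⟫ * ⟪(θ : Sp (N + 1)), b⟫ =
      ⟪(θ : Sp (N + 1)), b⟫ ^ 2 := fun θ => (pow_two _).symm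
  have := isProbabilityMeasure_sphereMeasure (Nat.le_add_left 1 N)
  simp only [hd, hsq] at h0
  rw [integral_sub (integrable_const _) (Integrable.of_bound
    (Measurable.aestronglyMeasurable (by fun_prop)) 1 (Eventually.of_forall fun θ => ?_)),
    integral_const, probReal_univ, one_smul] at h0
  · have hq := integral_sphere_inner_sq (N := N) hb
    set q := ∫ θ, ⟪(θ : Sp (N + 1)), b⟫ ^ 2 ∂sphereMeasure (N + 1)
    have e : a = N * c := by
      have : a * ((N + 1) * q) = c * ((N + 1) - (N + 1) * q) := by linear_combination ((N : ℝ) + 1) * h0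
      rw [hq] at this
      linarith
    rw [e, mul_comm (N : ℝ) c, mul_assoc] at key
    exact (mul_left_cancel₀ hcpos.ne' key).symm
  · rw [norm_pow, Real.norm_eq_abs]
    refine pow_le_one₀ (abs_nonneg _) ((abs_real_inner_le_norm _ _).trans_eq ?_)
    rw [hb, mem_sphere_zero_iff_norm.1 θ.2, one_mul]

end Vale.Agent.P157F
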