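import Vale.Agent.P157.Low.SphFacts
import Vale.Agent.P157.Low.SphDriftTilt

/-!
P157, sphere: sums over the patterns that are linear in the field.
-/

namespace Vale.Agent.P157F

open MeasureTheory ProbabilityTheory Filter Vale.Agent.P157 Vale.Agent.P157.Low
open scoped RealInnerProductSpace Topology

/-- Dominated convergence of replica averages. -/
lemma tendsto_avgRep_dom (S : Sys) {n : ℕ} {Θm : ℕ → S.Ω → (Fin n → S.X) → ℝ}
    {Θ G : S.Ω → (Fin n → S.X) → ℝ} (hm : ∀ m, Measurable (Function.uncurry (Θm m)))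
    (hG : Integrable (Function.uncurry G) (S.repLaw n)) (hb : ∀ m ω r, |Θm m ω r| ≤ G ω r)
    (hlim : ∀ ω r, Tendsto (fun m => Θm m ω r) atTop (𝓝 (Θ ω r))) :
    Tendsto (fun m => S.avgRep n (Θm m)) atTop (𝓝 (S.avgRep n Θ)) := by
  have hΘ : Measurable (Function.uncurry Θ) :=
    measurable_of_tendsto_metrizable hm (tendsto_pi_nhds.2 fun p => hlim p.1 p.2)
  have hi : ∀ m, Integrable (Function.uncurry (Θm m)) (S.repLaw n) := fun m =>
    hG.mono' (hm m).aestronglyMeasurable
      (Eventually.of_forall fun p => (Real.norm_eq_abs _).trans_le (hb m p.1 p.2))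
  have hiΘ : Integrable (Function.uncurry Θ) (S.repLaw n) :=
    hG.mono' hΘ.aestronglyMeasurable (Eventually.of_forall fun p => (Real.norm_eq_abs _).trans_le
      (le_of_tendsto' (hlim p.1 p.2).abs fun m => hb m p.1 p.2))
  simp only [fun m => S.avgRep_eq_of_integrable (hi m), S.avgRep_eq_of_integrable hiΘ]
  exact tendsto_integral_of_dominated_convergence _ (fun m => (hm m).aestronglyMeasurable) hG
    (fun m => Eventually.of_forall fun p => (Real.norm_eq_abs _).trans_le (hb m p.1 p.2))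
    (Eventually.of_forall fun p => hlim p.1 p.2)

/-- A field cut at height `m`. -/
noncomputable def cutAt (m : ℕ) (y : ℝ) : ℝ := max (-(m : ℝ)) (min (m : ℝ) y)

lemma abs_cutAt_le (m : ℕ) (y : ℝ) : |cutAt m y| ≤ |y| ∧ |cutAt m y| ≤ m := by
  have h0 : (0 : ℝ) ≤ m := Nat.cast_nonneg m
  have h1 := neg_abs_le y
  have h2 := le_abs_self y
  simp only [cutAt, abs_le]
  refine ⟨⟨?_, ?_⟩, ⟨le_max_left _ _, max_le (by linarith) (min_le_left _ _)⟩⟩
  · rcases le_total (m : ℝ) y with h | h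
    · exact le_max_of_le_right (by rw [min_eq_left h]; linarith [abs_nonneg y])
    · exact le_max_of_le_right (by rw [min_eq_right h]; linarith)
  · exact max_le (by linarith [abs_nonneg y]) ((min_le_right _ _).trans h2)

lemma tendsto_cutAt (y : ℝ) : Tendsto (fun m => cutAt m y) atTop (𝓝 y) := by
  refine tendsto_const_nhds.congr' ?_
  filter_upwards [eventually_ge_atTop ⌈|y|⌉₊] with m hm
  have h : |y| ≤ m := (Nat.le_ceil _).trans (Nat.cast_le.2 hm)
  obtain ⟨h1, h2⟩ := abs_le.1 h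
  simp [cutAt, min_eq_right h2, max_eq_right h1]

variable {f : ℝ → ℝ} {B : ℝ} {P : ℕ}

/-- The lengths of the patterns sum to an integrable function. -/
lemma integrable_sum_norm_pat (hf : Pot f B) (N : ℕ) (lam : ℝ) (x : Fin P → ℝ) :
    Integrable (fun ω : (sphSys hf N lam 0 x).Ω => ∑ a ∈ Finset.range (sphCnt ω), ‖ω.1.2 a‖)
      (sphSys hf N lam 0 x).law := by
  set h : ℕ × (ℕ → Sp (N + 1)) → ℝ := fun q => ∑ a ∈ Finset.range (q.1 + 0), ‖q.2 a‖
  have hm : Measurable h := measurable_from_prod_countable_right fun M =>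
    Finset.measurable_sum (Finset.range (M + 0)) fun a _ => (measurable_pi_apply a).norm
  have hmp : ∀ a : ℕ, MeasurePreserving (fun g : ℕ → Sp (N + 1) => g a) (patLaw (N + 1))
      (stdGaussian (Sp (N + 1))) := fun a =>
    measurePreserving_eval_infinitePi (fun _ : ℕ => stdGaussian (Sp (N + 1))) a
  have h1 : Integrable (fun z : Sp (N + 1) => ‖z‖) (stdGaussian (Sp (N + 1))) := by
    simpa using integrable_norm_pow (E := Sp (N + 1)) 1
  have hone : ∀ a, Integrable (fun g : ℕ → Sp (N + 1) => ‖g a‖) (patLaw (N + 1)) := fun a =>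
    (hmp a).integrable_comp_of_integrable h1
  have hval : ∀ a, ∫ g : ℕ → Sp (N + 1), ‖g a‖ ∂patLaw (N + 1) = ∫ z, ‖z‖ ∂stdGaussian (Sp (N + 1)) :=
    fun a => by
      rw [← (hmp a).map_eq, integral_map (hmp a).measurable.aemeasurable (by fun_prop)]
  have hh : Integrable h ((poiLaw lam).prod (patLaw (N + 1))) := by
    rw [integrable_prod_iff hm.aestronglyMeasurable]
    refine ⟨Eventually.of_forall fun M => integrable_finsetSum (Finset.range (M + 0)) fun a _ => hone a,
      integrable_poisson_of_le (C := |∫ z, ‖z‖ ∂stdGaussian (Sp (N + 1))|) (j := 1) fun M => ?_⟩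
    have e : ∫ g, ‖h (M, g)‖ ∂patLaw (N + 1) = (M : ℝ) * ∫ z, ‖z‖ ∂stdGaussian (Sp (N + 1)) := by
      refine (integral_congr_ae (Eventually.of_forall fun g => Real.norm_of_nonneg
        (Finset.sum_nonneg fun a _ => norm_nonneg _))).trans ?_
      dsimp only
      rw [integral_finsetSum _ fun a _ => hone a]
      simp [hval]
    rw [e, abs_mul, Nat.abs_cast, pow_one, mul_comm]
    exact mul_le_mul_of_nonneg_left (by linarith) (abs_nonneg _)
  exact hh.comp_fst (stdGaussian (PertSpace (N + 1) P))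

/-- A sum over the patterns, linear in a field, is an average at one more pattern. -/
theorem sphSys_palm_lin (hf : Pot f B) {b : ℝ} (hfm : Measurable (deriv f))
    (hb : ∀ y, |deriv f y| ≤ b) (N : ℕ) {lam : ℝ} (hl : 0 ≤ lam) (x : Fin P → ℝ)
    (Φ : Mat 2 → ℝ) (hΦ : Measurable Φ) {C : ℝ} (hC : ∀ R, |Φ R| ≤ C) (l : Fin 2) :
    (sphSys hf N lam 0 x).avgRep 2 (fun ω r => Φ ((sphSys hf N lam 0 x).gram r) *
        ∑ a ∈ Finset.range (sphCnt ω), deriv f (sphPat ω a (r 0)) * sphPat ω a (r l)) =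
      lam * ((sphSys hf N lam 0 x).tiltF hf).avgRep 2 (fun p (r : Fin 2 → Sph (N + 1)) =>
        Φ ((sphSys hf N lam 0 x).gram r) * (deriv f ⟪p.2, ((r 0 : Sph (N + 1)) : Sp (N + 1))⟫ *
          ⟪p.2, ((r l : Sph (N + 1)) : Sp (N + 1))⟫)) := by
  set S := sphSys hf N lam 0 x with hS
  have hb0 : 0 ≤ b := (abs_nonneg _).trans (hb 0)
  have hC0 : 0 ≤ C := (abs_nonneg _).trans (hC fun _ _ => 0)
  have hcm : ∀ m, Measurable (cutAt m) := fun m => measurable_const.max (measurable_const.min measurable_id)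
  have hΘm : ∀ m, Measurable fun y : Fin 2 → ℝ => deriv f (y 0) * cutAt m (y l) := fun m =>
    (hfm.comp (measurable_pi_apply 0)).mul ((hcm m).comp (measurable_pi_apply l))
  have key : ∀ m, S.avgRep 2 (fun ω r => Φ (S.gram r) *
        ∑ a ∈ Finset.range (sphCnt ω), deriv f (sphPat ω a (r 0)) * cutAt m (sphPat ω a (r l))) =
      lam * (S.tiltF hf).avgRep 2 (fun p (r : Fin 2 → Sph (N + 1)) =>
        Φ (S.gram r) * (deriv f ⟪p.2, ((r 0 : Sph (N + 1)) : Sp (N + 1))⟫ *
          cutAt m ⟪p.2, ((r l : Sph (N + 1)) : Sp (N + 1))⟫)) := fun m =>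
    sphSys_palm hf N hl x (fun y : Fin 2 → ℝ => deriv f (y 0) * cutAt m (y l)) (hΘm m)
      ⟨b * m, fun y => by
        rw [abs_mul]; exact mul_le_mul (hb _) (abs_cutAt_le m _).2 (abs_nonneg _) hb0⟩ Φ hΦ ⟨C, hC⟩
  have hgr : Measurable fun r : Fin 2 → Sph (N + 1) => Φ (S.gram r) := hΦ.comp (S.measurable_gram 2)
  have hprod : ∀ (u v c : ℝ) (m : ℕ), |u| ≤ b → |v| ≤ c → |u * cutAt m v| ≤ b * c := fun u v c m hu hv => by
    rw [abs_mul]; exact mul_le_mul hu ((abs_cutAt_le m v).1.trans hv) (abs_nonneg _) hb0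
  have hcur : ∀ r : Sph (N + 1), ∀ g : Sp (N + 1), |⟪g, (r : Sp (N + 1))⟫| ≤ ‖g‖ := fun r g => by
    simpa [mem_sphere_zero_iff_norm.1 r.2] using abs_real_inner_le_norm g (r : Sp (N + 1))
  have hh : ∀ (m M : ℕ), Measurable (Function.uncurry fun (g : ℕ → Sp (N + 1))
      (r : Fin 2 → Sph (N + 1)) => Φ (S.gram r) * ∑ a ∈ Finset.range (M + 0),
        deriv f ⟪g a, ((r 0 : Sph (N + 1)) : Sp (N + 1))⟫ *
          cutAt m ⟪g a, ((r l : Sph (N + 1)) : Sp (N + 1))⟫) := fun m M =>
    (hgr.comp measurable_snd).mul (Finset.measurable_sum (Finset.range (M + 0)) fun a _ =>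
      (hfm.comp (Measurable.inner ((measurable_pi_apply a).comp measurable_fst)
        (measurable_subtype_coe.comp ((measurable_pi_apply 0).comp measurable_snd)))).mul
      ((hcm m).comp (Measurable.inner ((measurable_pi_apply a).comp measurable_fst)
        (measurable_subtype_coe.comp ((measurable_pi_apply l).comp measurable_snd)))))
  have hE : Integrable (Function.uncurry fun (ω : S.Ω) (_ : Fin 2 → S.X) =>
      C * (b * ∑ a ∈ Finset.range (sphCnt ω), ‖ω.1.2 a‖)) (S.repLaw 2) := by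
    have hg := ((integrable_sum_norm_pat hf N lam x).const_mul b).const_mul C
    rw [← S.map_fst_repLaw 2] at hg
    exact hg.comp_measurable measurable_fst
  have L := tendsto_avgRep_dom S
    (Θm := fun m ω r => Φ (S.gram r) *
      ∑ a ∈ Finset.range (sphCnt ω), deriv f (sphPat ω a (r 0)) * cutAt m (sphPat ω a (r l)))
    (Θ := fun ω r => Φ (S.gram r) *
      ∑ a ∈ Finset.range (sphCnt ω), deriv f (sphPat ω a (r 0)) * sphPat ω a (r l))
    (G := fun ω _ => C * (b * ∑ a ∈ Finset.range (sphCnt ω), ‖ω.1.2 a‖))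
    (fun m => measurable_count (hh m)) hE
    (fun m ω r => by
      rw [abs_mul, Finset.mul_sum _ _ b]
      exact mul_le_mul (hC _) ((Finset.abs_sum_le_sum_abs _ _).trans (Finset.sum_le_sum fun a _ =>
        hprod _ _ _ m (hb _) (hcur _ _))) (abs_nonneg _) hC0)
    (fun ω r => (tendsto_finsetSum _ fun a _ => (tendsto_cutAt _).const_mul _).const_mul _)
  have hm2 : ∀ i : Fin 2, Measurable fun q : (S.Ω × Sp (N + 1)) × (Fin 2 → Sph (N + 1)) =>
      ⟪q.1.2, ((q.2 i : Sph (N + 1)) : Sp (N + 1))⟫ := fun i => measurable_tilt_field S i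
  have hmR : ∀ m, Measurable (Function.uncurry fun (p : S.Ω × Sp (N + 1)) (r : Fin 2 → Sph (N + 1)) =>
      Φ (S.gram r) * (deriv f ⟪p.2, ((r 0 : Sph (N + 1)) : Sp (N + 1))⟫ *
        cutAt m ⟪p.2, ((r l : Sph (N + 1)) : Sp (N + 1))⟫)) := fun m =>
    (hgr.comp measurable_snd).mul ((hfm.comp (hm2 0)).mul ((hcm m).comp (hm2 l)))
  have hER := integrable_tiltF hf S (n := 2) (Θ := fun p _ => C * (b * ‖p.2‖)) (C := C * b)
    ((((measurable_snd.comp measurable_fst).norm).const_mul b).const_mul C) fun p _ => by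
      rw [abs_of_nonneg (by positivity), ← mul_assoc]
      exact mul_le_mul_of_nonneg_left (by nlinarith [norm_nonneg p.2]) (by positivity)
  have R := tendsto_avgRep_dom (S.tiltF hf)
    (Θm := fun m p (r : Fin 2 → Sph (N + 1)) => Φ (S.gram r) *
      (deriv f ⟪p.2, ((r 0 : Sph (N + 1)) : Sp (N + 1))⟫ *
        cutAt m ⟪p.2, ((r l : Sph (N + 1)) : Sp (N + 1))⟫))
    (Θ := fun p (r : Fin 2 → Sph (N + 1)) => Φ (S.gram r) *
      (deriv f ⟪p.2, ((r 0 : Sph (N + 1)) : Sp (N + 1))⟫ * ⟪p.2, ((r l : Sph (N + 1)) : Sp (N + 1))⟫))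
    (G := fun p _ => C * (b * ‖p.2‖)) hmR hER
    (fun m p r => by
      rw [abs_mul]
      exact mul_le_mul (hC _) (hprod _ _ _ m (hb _) (hcur _ _)) (abs_nonneg _) hC0)
    (fun p r => ((tendsto_cutAt _).const_mul _).const_mul _)
  exact tendsto_nhds_unique L ((R.const_mul lam).congr fun m => (key m).symm)

end Vale.Agent.P157F
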