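import Vale.Agent.P157.Low.GGStein

/-!
P157, sphere: the perturbation along tangent vectors is small after integration by parts.
-/

namespace Vale.Agent.P157F

open MeasureTheory ProbabilityTheory Filter Vale.Agent.P157 Vale.Agent.P157.Low
open scoped RealInnerProductSpace Topology

variable {N P : ℕ}

/-- Inner product of two features. -/
lemma inner_pertVec_pertVec (x : Fin P → ℝ) (a b : EuclideanSpace ℝ (Fin N)) :
    ⟪pertVec x a, pertVec x b⟫ = ∑ q : Fin P, x q ^ 2 * ⟪a, b⟫ ^ ((q : ℕ) + 1) := by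
  have hab : ⟪a, b⟫ = ∑ j, a j * b j := by simp [PiLp.inner_apply, mul_comm]
  rw [PiLp.inner_apply, Fintype.sum_sigma]
  refine Finset.sum_congr rfl fun q _ => ?_
  simp only [pertVec, RCLike.inner_apply, conj_trivial]
  rw [hab, ← Fin.prod_const (n := (q : ℕ) + 1) (∑ j, a j * b j), Fintype.prod_sum, Finset.mul_sum]
  refine Finset.sum_congr rfl fun i _ => ?_
  rw [Finset.prod_mul_distrib]
  ring

lemma contDiff_pertVec (x : Fin P → ℝ) : ContDiff ℝ 1 (pertVec (N := N) x) := by
  refine contDiff_euclidean.2 fun i => ?_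
  show ContDiff ℝ 1 fun u : EuclideanSpace ℝ (Fin N) => x i.1 * ∏ k, u (i.2 k)
  fun_prop

lemma one_add_pow_sub_le {y : ℝ} (hy : 0 ≤ y) (m : ℕ) :
    (1 + y) ^ m - 1 ≤ m * y * (1 + y) ^ m := by
  induction m with
  | zero => simp
  | succ m ih =>
    have h : 1 ≤ (1 + y) ^ (m + 1) := one_le_pow₀ (by linarith)
    have := mul_le_mul_of_nonneg_right ih (show (0 : ℝ) ≤ 1 + y by linarith)
    push_cast
    nlinarith [pow_succ (1 + y) m, mul_le_mul_of_nonneg_left h hy]

/-- The feature moves at most linearly along a tangent vector. -/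
theorem norm_fderiv_pertVec_le (x : Fin P → ℝ) {θ v : EuclideanSpace ℝ (Fin N)} (hθ : ‖θ‖ = 1)
    (hv : ⟪θ, v⟫ = 0) :
    ‖fderiv ℝ (pertVec x) θ v‖ ≤ (∑ q, |x q| * ((q : ℕ) + 1)) * ‖v‖ := by
  set D := fderiv ℝ (pertVec x) θ v with hD
  set c := ‖v‖ ^ 2 with hc
  have hd : HasDerivAt (fun t : ℝ => pertVec x (θ + t • v)) D 0 := by
    have h := ((contDiff_pertVec x).differentiable one_ne_zero (θ + (0 : ℝ) • v)).hasFDerivAt
    simpa [Function.comp_def, hD] using h.comp_hasDerivAt (0 : ℝ)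
      (((hasDerivAt_id' (0 : ℝ)).smul_const v).const_add θ)
  have hlim := ((hasDerivAt_iff_tendsto_slope_zero.1 hd).norm).pow 2
  simp only [zero_add, zero_smul, add_zero] at hlim
  have hR : Tendsto (fun t : ℝ => ∑ q : Fin P, x q ^ 2 * (((q : ℕ) + 1 : ℕ) * c *
      (1 + t ^ 2 * c) ^ ((q : ℕ) + 1))) (𝓝[≠] 0) (𝓝 (∑ q : Fin P, x q ^ 2 * (((q : ℕ) + 1 : ℕ) * c))) := by
    have h : Continuous fun t : ℝ => ∑ q : Fin P, x q ^ 2 * (((q : ℕ) + 1 : ℕ) * c *
      (1 + t ^ 2 * c) ^ ((q : ℕ) + 1)) := by fun_prop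
    simpa using (h.tendsto 0).mono_left nhdsWithin_le_nhds
  have hle : ‖D‖ ^ 2 ≤ ∑ q : Fin P, x q ^ 2 * (((q : ℕ) + 1 : ℕ) * c) := by
    refine le_of_tendsto_of_tendsto hlim hR (eventually_nhdsWithin_of_forall fun t ht => ?_)
    have ht0 : t ≠ 0 := ht
    have htt : ⟪θ + t • v, θ + t • v⟫ = 1 + t ^ 2 * c := by
      rw [real_inner_self_eq_norm_sq, norm_add_sq_real, real_inner_smul_right, hv, norm_smul, mul_pow,
        Real.norm_eq_abs, sq_abs, hθ, hc]
      ring
    have ht1 : ⟪θ + t • v, θ⟫ = 1 := by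
      simp [inner_add_left, real_inner_smul_left, real_inner_comm θ v, hv, hθ]
    have e : ‖t⁻¹ • (pertVec x (θ + t • v) - pertVec x θ)‖ ^ 2 =
        (t ^ 2)⁻¹ * ∑ q : Fin P, x q ^ 2 * ((1 + t ^ 2 * c) ^ ((q : ℕ) + 1) - 1) := by
      rw [norm_smul, mul_pow, Real.norm_eq_abs, sq_abs, inv_pow, norm_sub_sq_real,
        ← real_inner_self_eq_norm_sq, ← real_inner_self_eq_norm_sq, inner_pertVec_pertVec,
        inner_pertVec_pertVec, inner_pertVec_pertVec, htt, ht1, real_inner_self_eq_norm_sq, hθ]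
      simp only [one_pow, mul_one, mul_sub, Finset.sum_sub_distrib]
      ring
    dsimp only
    rw [e, Finset.mul_sum]
    refine Finset.sum_le_sum fun q _ => ?_
    have h := one_add_pow_sub_le (y := t ^ 2 * c) (by positivity) ((q : ℕ) + 1)
    refine (mul_le_mul_of_nonneg_left (mul_le_mul_of_nonneg_left h (sq_nonneg (x q)))
      (by positivity)).trans_eq ?_
    field_simp
  have hsum : ∑ q : Fin P, x q ^ 2 * (((q : ℕ) + 1 : ℕ) * c) ≤
      ((∑ q : Fin P, |x q| * ((q : ℕ) + 1)) * ‖v‖) ^ 2 := by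
    rw [mul_pow, ← hc]
    refine le_trans ?_ (mul_le_mul_of_nonneg_right
      (Finset.sum_sq_le_sq_sum_of_nonneg (f := fun q : Fin P => |x q| * ((q : ℕ) + 1))
        fun q _ => by positivity) (sq_nonneg _))
    rw [Finset.sum_mul]
    refine Finset.sum_le_sum fun q _ => ?_
    rw [mul_pow, sq_abs]
    have h1 : (1 : ℝ) ≤ (q : ℕ) + 1 := by simp
    push_cast
    nlinarith [mul_nonneg (mul_nonneg (sq_nonneg (x q)) (sq_nonneg ‖v‖))
      (mul_nonneg (zero_le_one.trans h1) (sub_nonneg.2 h1))]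
  exact (pow_le_pow_iff_left₀ (norm_nonneg _) (mul_nonneg (Finset.sum_nonneg fun q _ => by positivity)
    (norm_nonneg _)) two_ne_zero).1 (hle.trans hsum)

/-- A bounded vector of the replicas is weakly correlated with the perturbation. -/
theorem abs_pert_field_le (S : Sys) (u : S.X → EuclideanSpace ℝ (Fin N)) (hu : Measurable u)
    (hu1 : ∀ a, ‖u a‖ = 1) {s : ℝ} (hs : 0 ≤ s) (x : Fin P → ℝ) {n : ℕ}
    (W : (Fin n → S.X) → PertSpace N P) (hW : Measurable W) {L : ℝ} (hL : 0 ≤ L)
    (hWb : ∀ a, ‖W a‖ ≤ L) :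
    |pertRep S u s x n fun z a => ⟪z.2, W a⟫| ≤ 2 * n * s * L * ∑ q, |x q| := by
  set γ := stdGaussian (PertSpace N P)
  set σ := ∑ q, |x q| with hσ
  have happ : ∀ i, Measurable fun v : PertSpace N P => v i := fun i =>
    ((continuous_apply i).comp (PiLp.continuous_ofLp 2 _)).measurable
  have hWi : ∀ i, Measurable fun a => W a i := fun i => (happ i).comp hW
  have hWib : ∀ i a, |W a i| ≤ L := fun i a =>
    le_trans (by simpa using PiLp.norm_apply_le (W a) i) (hWb a)
  set A := fun i (a : Fin n → S.X) => W a i * ∑ j, s * (pertVec x (u (a j))) i with hA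
  set A' := fun i (a : Fin (n + 1) → S.X) =>
    W (a ∘ Fin.castSucc) i * (s * (pertVec x (u (a (Fin.last n)))) i) with hA'
  have hcs : Measurable fun a : Fin (n + 1) → S.X => a ∘ Fin.castSucc :=
    measurable_pi_lambda _ fun j => measurable_pi_apply _
  have hVm : ∀ i {m : ℕ} (j : Fin m), Measurable fun a : Fin m → S.X => s * (pertVec x (u (a j))) i :=
    fun i m j => ((happ i).comp ((measurable_pertVec x).comp (hu.comp (measurable_pi_apply j)))).const_mul s
  have hVb : ∀ i a, |s * (pertVec x (u a)) i| ≤ s * σ := fun i a => by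
    rw [abs_mul, abs_of_nonneg hs]
    exact mul_le_mul_of_nonneg_left (le_trans (by simpa using PiLp.norm_apply_le (pertVec x (u a)) i)
      (norm_pertVec_le x _ (hu1 a))) hs
  have hAm : ∀ i, Measurable (A i) := fun i =>
    (hWi i).mul (Finset.measurable_sum _ fun j _ => hVm i j)
  have hA'm : ∀ i, Measurable (A' i) := fun i => ((hWi i).comp hcs).mul (hVm i _)
  have hAb : ∀ i a, |A i a| ≤ L * (n * (s * σ)) := fun i a => by
    rw [abs_mul]
    exact mul_le_mul (hWib i a) ((Finset.abs_sum_le_sum_abs _ _).trans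
      ((Finset.sum_le_sum fun j _ => hVb i _).trans_eq (by simp))) (abs_nonneg _) hL
  have hA'b : ∀ i a, |A' i a| ≤ L * (s * σ) := fun i a => by
    rw [abs_mul]
    exact mul_le_mul (hWib i _) (hVb i _) (abs_nonneg _) hL
  have hin : ∀ (v : PertSpace N P) (a : S.X), ‖v‖ ≤ L → |∑ i, v i * (s * (pertVec x (u a)) i)| ≤
      s * (L * σ) := fun v a hv => by
    rw [show ∑ i, v i * (s * (pertVec x (u a)) i) = s * ⟪v, pertVec x (u a)⟫ by
      rw [PiLp.inner_apply, Finset.mul_sum]
      exact Finset.sum_congr rfl fun i _ => by simp; ring]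
    rw [abs_mul, abs_of_nonneg hs]
    exact mul_le_mul_of_nonneg_left ((abs_real_inner_le_norm _ _).trans
      (mul_le_mul hv (norm_pertVec_le x _ (hu1 a)) (norm_nonneg _) hL)) hs
  have hAs : ∀ a, |∑ i, A i a| ≤ n * (s * (L * σ)) := fun a => by
    simp only [hA, Finset.mul_sum]
    rw [Finset.sum_comm]
    exact (Finset.abs_sum_le_sum_abs _ _).trans
      ((Finset.sum_le_sum fun j _ => hin _ _ (hWb a)).trans_eq (by simp))
  have hA's : ∀ a, |∑ i, A' i a| ≤ s * (L * σ) := fun a => hin _ _ (hWb _)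
  have key : ∀ ω, |∫ J, pertAvg S u s x (fun a => ⟪J, W a⟫) (ω, J) ∂γ| ≤ 2 * n * s * L * σ := fun ω => by
    have hp : ∀ J (m : ℕ), IsProbabilityMeasure
        (Measure.pi fun _ : Fin m => gibbs S.ref (pertW S u s x (ω, J))) := fun J m => by
      have := isProbabilityMeasure_gibbs (μ := S.ref) (wt_pertW hu hu1 s x (ω, J))
      infer_instance
    have hmz : ∀ {m : ℕ} {Θ : (Fin m → S.X) → ℝ}, Measurable Θ →
        Measurable fun J => pertAvg S u s x Θ (ω, J) := fun {m Θ} hΘ =>
      (measurable_pertAvg' hu hu1 (Θ := fun _ => Θ) (hΘ.comp measurable_snd)).comp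
        (measurable_const.prodMk measurable_id)
    have e1 : ∀ J, pertAvg S u s x (fun a => ⟪J, W a⟫) (ω, J) =
        ∑ i, J i * pertAvg S u s x (fun a => W a i) (ω, J) := fun J => by
      have := hp J n
      simp only [pertAvg, ← integral_const_mul]
      rw [← integral_finsetSum _ fun i _ => (integrable_of_bdd (hWi i) (hWib i)).const_mul _]
      exact integral_congr_ae (Eventually.of_forall fun a => by simp [PiLp.inner_apply, mul_comm])
    have hint : ∀ i, Integrable (fun J => J i * pertAvg S u s x (fun a => W a i) (ω, J)) γ := fun i => by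
      refine ((integrable_norm_pow (E := PertSpace N P) 1).mul_const L).mono'
        ((happ i).mul (hmz (hWi i))).aestronglyMeasurable (Eventually.of_forall fun J => ?_)
      rw [Real.norm_eq_abs, abs_mul, pow_one]
      exact mul_le_mul (by simpa using PiLp.norm_apply_le J i) (abs_pertAvg_le hu hu1 (hWib i) _)
        (abs_nonneg _) (norm_nonneg _)
    have hint' : ∀ i, Integrable (fun J => pertAvg S u s x (A i) (ω, J) -
        n * pertAvg S u s x (A' i) (ω, J)) γ := fun i =>
      (integrable_of_bdd (hmz (hAm i)) fun J => abs_pertAvg_le hu hu1 (hAb i) _).sub'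
        ((integrable_of_bdd (hmz (hA'm i)) fun J => abs_pertAvg_le hu hu1 (hA'b i) _).const_mul _)
    simp only [e1]
    rw [integral_finsetSum _ fun i _ => hint i]
    simp only [γ, fun i => stein_coord hu hu1 (s := s) (x := x) (hWi i) (hWib i) ω i]
    rw [← integral_finsetSum _ fun i _ => hint' i, ← Real.norm_eq_abs]
    refine (norm_integral_le_of_norm_le_const (C := 2 * n * s * L * σ)
      (Eventually.of_forall fun J => ?_)).trans (by simp)
    have hs1 : ∑ i, pertAvg S u s x (A i) (ω, J) = pertAvg S u s x (fun a => ∑ i, A i a) (ω, J) := by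
      have := hp J n
      simp only [pertAvg]
      rw [integral_finsetSum _ fun i _ => integrable_of_bdd (hAm i) (hAb i)]
    have hs2 : ∑ i, pertAvg S u s x (A' i) (ω, J) = pertAvg S u s x (fun a => ∑ i, A' i a) (ω, J) := by
      have := hp J (n + 1)
      simp only [pertAvg]
      rw [integral_finsetSum _ fun i _ => integrable_of_bdd (hA'm i) (hA'b i)]
    simp only [Real.norm_eq_abs, hA, hA'] at hs1 hs2 ⊢
    rw [Finset.sum_sub_distrib, ← Finset.mul_sum, hs1, hs2]
    refine (abs_sub _ _).trans ?_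
    rw [abs_mul, Nat.abs_cast]
    have b1 := abs_pertAvg_le hu hu1 (s := s) (x := x) hAs (ω, J)
    have b2 := mul_le_mul_of_nonneg_left (abs_pertAvg_le hu hu1 (s := s) (x := x) hA's (ω, J))
      (Nat.cast_nonneg' (α := ℝ) n)
    simp only [hA, hA'] at b1 b2
    linarith
  have hi : Integrable (fun z : S.Ω × PertSpace N P => pertAvg S u s x (fun a => ⟪z.2, W a⟫) z)
      (S.law.prod γ) :=
    integrable_pertAvg hu hu1 (Θ := fun z a => ⟪z.2, W a⟫)
      ((measurable_snd.comp measurable_fst).inner (hW.comp measurable_snd)) (b := 0) (c := L)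
      fun z a => by
        rw [zero_add, mul_comm]
        exact (abs_real_inner_le_norm _ _).trans (mul_le_mul_of_nonneg_left (hWb a) (norm_nonneg _))
  rw [pertRep, integral_prod _ hi, ← Real.norm_eq_abs]
  exact (norm_integral_le_of_norm_le_const (Eventually.of_forall fun ω =>
    (Real.norm_eq_abs _).trans_le (key ω))).trans (by simp)

end Vale.Agent.P157F
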