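import Vale.Agent.P157.Low.SphDriftTilt
import Vale.Agent.P157.Low.GGBase

/-!
P157, sphere: integration by parts in one added pattern along the tangent towards the second replica.
-/

namespace Vale.Agent.P157F

open MeasureTheory ProbabilityTheory Filter Vale.Agent.P157 Vale.Agent.P157.Low
open scoped RealInnerProductSpace Topology

/-- Gaussian integration by parts along any vector. -/
lemma stein_vec {E : Type} [NormedAddCommGroup E] [InnerProductSpace ℝ E] [FiniteDimensional ℝ E]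
    [MeasurableSpace E] [BorelSpace E] (d : E) {G G' : E → ℝ} (hG : Measurable G) (hG' : Measurable G')
    (hd : ∀ g, HasDerivAt (fun t : ℝ => G (g + t • d)) (G' g) 0) {C : ℝ}
    (hb : ∀ g, |G g| ≤ C) (hb' : ∀ g, |G' g| ≤ C) :
    ∫ g, ⟪g, d⟫ * G g ∂stdGaussian E = ∫ g, G' g ∂stdGaussian E := by
  rcases eq_or_ne d 0 with rfl | hd0
  · have h : ∀ g, G' g = 0 := fun g => by
      have h1 : HasDerivAt (fun t : ℝ => G (g + t • (0 : E))) 0 0 := by
        simpa using hasDerivAt_const (0 : ℝ) (G g)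
      exact (hd g).unique h1
    simp [h]
  · have hn : ‖d‖ ≠ 0 := norm_ne_zero_iff.2 hd0
    have hv : ‖‖d‖⁻¹ • d‖ = 1 := by simp [norm_smul, hn]
    have hC : 0 ≤ C := (abs_nonneg _).trans (hb 0)
    have h := stein_unit hv hG (G' := fun g => ‖d‖⁻¹ * G' g) (hG'.const_mul _) (fun g => ?_)
      (C := max C (‖d‖⁻¹ * C)) (fun g => (hb g).trans (le_max_left _ _)) (fun g => ?_)
    · simp only [real_inner_smul_right, mul_assoc, integral_const_mul] at h
      exact mul_left_cancel₀ (inv_ne_zero hn) h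
    · have h1 := HasDerivAt.comp (0 : ℝ) (h := fun t : ℝ => t * ‖d‖⁻¹) (h₂ := fun t : ℝ => G (g + t • d))
        (by simpa using hd g) ((hasDerivAt_id' (0 : ℝ)).mul_const ‖d‖⁻¹)
      simpa [Function.comp_def, smul_smul, mul_comm] using h1
    · rw [abs_mul, abs_of_nonneg (inv_nonneg.2 (norm_nonneg d))]
      exact (mul_le_mul_of_nonneg_left (hb' g) (by positivity)).trans (le_max_right _ _)

variable {f : ℝ → ℝ} {B : ℝ}

/-- The slope at the first replica times the field along the tangent towards the second one. -/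
theorem tiltF_stein_tangent (hf : Pot f B) (hd : BdD 1 f) (S : Sys) {φ : ℝ → ℝ} (hφ : Continuous φ) :
    (S.tiltF hf).avgRep 2 (fun (p : S.Ω × S.E) (r : Fin 2 → S.X) =>
        φ ⟪S.v (r 0), S.v (r 1)⟫ * (deriv f ⟪p.2, S.v (r 0)⟫ *
          (⟪p.2, S.v (r 1)⟫ - ⟪S.v (r 0), S.v (r 1)⟫ * ⟪p.2, S.v (r 0)⟫))) =
      (S.tiltF hf).avgRep 2 (fun (p : S.Ω × S.E) (r : Fin 2 → S.X) =>
          φ ⟪S.v (r 0), S.v (r 1)⟫ * (1 - ⟪S.v (r 0), S.v (r 1)⟫ ^ 2) *
            (deriv f ⟪p.2, S.v (r 0)⟫ * deriv f ⟪p.2, S.v (r 1)⟫)) -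
        2 * (S.tiltF hf).avgRep 3 (fun (p : S.Ω × S.E) (r : Fin 3 → S.X) =>
          φ ⟪S.v (r 0), S.v (r 1)⟫ *
              (⟪S.v (r 1), S.v (r 2)⟫ - ⟪S.v (r 0), S.v (r 1)⟫ * ⟪S.v (r 0), S.v (r 2)⟫) *
            (deriv f ⟪p.2, S.v (r 0)⟫ * deriv f ⟪p.2, S.v (r 2)⟫)) := by
  obtain ⟨hfd, -, hf'c, b, hb⟩ := hd
  have hb0 : 0 ≤ b := (abs_nonneg _).trans (hb 0)
  have hf'm : Measurable (deriv f) := hf'c.measurable
  obtain ⟨D0, hD0⟩ := isCompact_Icc.exists_bound_of_continuousOn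
    (hφ.continuousOn (s := Set.Icc (-1 : ℝ) 1))
  have hin : ∀ σ τ, |⟪S.v σ, S.v τ⟫| ≤ 1 := fun σ τ => by
    simpa [S.unit] using abs_real_inner_le_norm (S.v σ) (S.v τ)
  set D := max D0 0
  have hD : 0 ≤ D := le_max_right _ _
  have hφb : ∀ σ τ, |φ ⟪S.v σ, S.v τ⟫| ≤ D := fun σ τ =>
    (hD0 _ (abs_le.1 (hin σ τ))).trans (le_max_left _ _)
  have hsub : ∀ a c e, |⟪S.v a, S.v c⟫ - ⟪S.v e, S.v a⟫ * ⟪S.v e, S.v c⟫| ≤ 2 := fun a c e => by
    refine (abs_sub _ _).trans ?_
    rw [abs_mul]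
    linarith [hin a c, mul_le_one₀ (hin e a) (abs_nonneg _) (hin e c)]
  have h1sq : ∀ a c, |1 - ⟪S.v a, S.v c⟫ ^ 2| ≤ 2 := fun a c => by
    refine (abs_sub _ _).trans ?_
    rw [abs_one, abs_pow]
    linarith [pow_le_one₀ (n := 2) (abs_nonneg _) (hin a c)]
  have hf2b : ∀ y z, |deriv f y * deriv f z| ≤ b * b := fun y z => by
    rw [abs_mul]; exact mul_le_mul (hb _) (hb _) (abs_nonneg _) hb0
  have hv : ∀ {n : ℕ} (i j : Fin n), Measurable fun r : Fin n → S.X => ⟪S.v (r i), S.v (r j)⟫ :=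
    fun i j => (S.measV.comp (measurable_pi_apply i)).inner (S.measV.comp (measurable_pi_apply j))
  have hφv : ∀ {n : ℕ} (i j : Fin n), Measurable fun r : Fin n → S.X => φ ⟪S.v (r i), S.v (r j)⟫ :=
    fun i j => hφ.measurable.comp (hv i j)
  have hone : ∀ g : S.E, (1 : ℝ) ≤ (1 + ‖g‖) ^ 2 := fun g => by nlinarith [norm_nonneg g]
  -- the three integrands
  set Θ1 : S.Ω × S.E → (Fin 2 → S.X) → ℝ := fun p r => φ ⟪S.v (r 0), S.v (r 1)⟫ *
    (deriv f ⟪p.2, S.v (r 0)⟫ *
      (⟪p.2, S.v (r 1)⟫ - ⟪S.v (r 0), S.v (r 1)⟫ * ⟪p.2, S.v (r 0)⟫))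
  set Θ2 : S.Ω × S.E → (Fin 2 → S.X) → ℝ := fun p r =>
    φ ⟪S.v (r 0), S.v (r 1)⟫ * (1 - ⟪S.v (r 0), S.v (r 1)⟫ ^ 2) *
      (deriv f ⟪p.2, S.v (r 0)⟫ * deriv f ⟪p.2, S.v (r 1)⟫)
  set Θ3 : S.Ω × S.E → (Fin 3 → S.X) → ℝ := fun p r => φ ⟪S.v (r 0), S.v (r 1)⟫ *
    (⟪S.v (r 1), S.v (r 2)⟫ - ⟪S.v (r 0), S.v (r 1)⟫ * ⟪S.v (r 0), S.v (r 2)⟫) *
      (deriv f ⟪p.2, S.v (r 0)⟫ * deriv f ⟪p.2, S.v (r 2)⟫)
  have I1 := integrable_tiltF hf S (n := 2) (Θ := Θ1) (C := D * (b * 2))
    (((hφv 0 1).comp measurable_snd).mul ((hf'm.comp (measurable_tilt_field S (0 : Fin 2))).mul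
      ((measurable_tilt_field S (1 : Fin 2)).sub
        (((hv 0 1).comp measurable_snd).mul (measurable_tilt_field S (0 : Fin 2))))))
    fun p r => by
      rw [abs_mul, abs_mul, mul_assoc D]
      refine mul_le_mul (hφb _ _) ?_ (by positivity) hD
      rw [mul_assoc b]
      refine mul_le_mul (hb _) ?_ (abs_nonneg _) hb0
      refine (abs_sub _ _).trans ?_
      rw [abs_mul]
      nlinarith [hin (r 0) (r 1), abs_inner_unit_le S p.2 (r 0), abs_inner_unit_le S p.2 (r 1),
        abs_nonneg ⟪p.2, S.v (r 0)⟫, abs_nonneg ⟪S.v (r 0), S.v (r 1)⟫, norm_nonneg p.2]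
  have hΘ2b : ∀ p r, |Θ2 p r| ≤ D * 2 * (b * b) := fun p r => by
    rw [abs_mul, abs_mul]
    exact mul_le_mul (mul_le_mul (hφb _ _) (h1sq _ _) (abs_nonneg _) hD) (hf2b _ _) (abs_nonneg _)
      (by positivity)
  have hΘ3b : ∀ p r, |Θ3 p r| ≤ D * 2 * (b * b) := fun p r => by
    rw [abs_mul, abs_mul]
    exact mul_le_mul (mul_le_mul (hφb _ _) (hsub (r 1) (r 2) (r 0)) (abs_nonneg _) hD) (hf2b _ _)
      (abs_nonneg _) (by positivity)
  have hΘ2m : Measurable (Function.uncurry Θ2) :=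
    (((hφv 0 1).comp measurable_snd).mul
      ((((hv 0 1).comp measurable_snd).pow_const 2).const_sub 1)).mul
      ((hf'm.comp (measurable_tilt_field S (0 : Fin 2))).mul (hf'm.comp (measurable_tilt_field S (1 : Fin 2))))
  have hΘ3m : Measurable (Function.uncurry Θ3) :=
    (((hφv 0 1).comp measurable_snd).mul (((hv 1 2).comp measurable_snd).sub
      (((hv 0 1).comp measurable_snd).mul ((hv 0 2).comp measurable_snd)))).mul
      ((hf'm.comp (measurable_tilt_field S (0 : Fin 3))).mul (hf'm.comp (measurable_tilt_field S (2 : Fin 3))))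
  have I2 := integrable_tiltF hf S (n := 2) (Θ := Θ2) (C := D * 2 * (b * b)) hΘ2m
    fun p r => (hΘ2b p r).trans (le_mul_of_one_le_right (by positivity) (hone _))
  have I3 := integrable_tiltF hf S (n := 3) (Θ := Θ3) (C := D * 2 * (b * b)) hΘ3m
    fun p r => (hΘ3b p r).trans (le_mul_of_one_le_right (by positivity) (hone _))
  set wg : S.Ω × S.E → S.X → ℝ := fun p y => S.w p.1 y * expW f ⟪p.2, S.v y⟫
  set J1 : S.Ω × S.E → ℝ := fun p => ∫ r, Θ1 p r ∂Measure.pi fun _ => gibbs S.ref (wg p)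
  set J2 : S.Ω × S.E → ℝ := fun p => ∫ r, Θ2 p r ∂Measure.pi fun _ => gibbs S.ref (wg p)
  set J3 : S.Ω × S.E → ℝ := fun p => ∫ r, Θ3 p r ∂Measure.pi fun _ => gibbs S.ref (wg p)
  have i1 : Integrable J1 (S.law.prod (stdGaussian S.E)) := (S.tiltF hf).integrable_inner I1
  have i2 : Integrable J2 (S.law.prod (stdGaussian S.E)) := (S.tiltF hf).integrable_inner I2
  have i3 : Integrable J3 (S.law.prod (stdGaussian S.E)) := (S.tiltF hf).integrable_inner I3
  show ∫ p, J1 p ∂S.law.prod (stdGaussian S.E) =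
    (∫ p, J2 p ∂S.law.prod (stdGaussian S.E)) - 2 * ∫ p, J3 p ∂S.law.prod (stdGaussian S.E)
  rw [integral_prod _ i1, integral_prod _ i2, integral_prod _ i3, ← integral_const_mul,
    ← integral_sub i2.integral_prod_left (i3.integral_prod_left.const_mul 2)]
  refine integral_congr_ae ?_
  filter_upwards [i2.prod_right_ae, i3.prod_right_ae] with ω j2 j3
  rw [← integral_const_mul, ← integral_sub j2 (j3.const_mul 2)]
  -- one disorder
  have := isProbabilityMeasure_gibbs (μ := S.ref) (S.wt ω)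
  set ν := gibbs S.ref (S.w ω)
  set ν2 := Measure.pi fun _ : Fin 2 => ν with hν2
  set e : S.E → S.X → ℝ := fun g τ => expW f ⟪g, S.v τ⟫ with he
  set dir2 : (Fin 2 → S.X) → S.E := fun r =>
    S.v (r 1) - ⟪S.v (r 0), S.v (r 1)⟫ • S.v (r 0) with hdir2
  have hdin : ∀ r τ, ⟪dir2 r, S.v τ⟫ =
      ⟪S.v (r 1), S.v τ⟫ - ⟪S.v (r 0), S.v (r 1)⟫ * ⟪S.v (r 0), S.v τ⟫ := fun r τ => by
    simp only [hdir2, inner_sub_left, real_inner_smul_left]
  have hfl : Measurable fun q : S.E × S.X => ⟪q.1, S.v q.2⟫ :=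
    measurable_fst.inner (S.measV.comp measurable_snd)
  have hwu : ∀ g, Wt (e g) := fun g =>
    Wt.exp (hf.meas.comp (measurable_const.inner S.measV)) (β := B) fun y => hf.bound _
  set EB := Real.exp (-B)
  set EP := Real.exp B
  have hEB : 0 < EB := Real.exp_pos _
  have hEP : 0 < EP := Real.exp_pos _
  have hep : ∀ g τ, 0 ≤ e g τ ∧ e g τ ≤ EP := fun g τ => ⟨(Real.exp_pos _).le, (expW_mem hf _).2⟩
  set Z : S.E → ℝ := fun g => ∫ τ, e g τ ∂ν
  set U : S.E → (Fin 2 → S.X) → ℝ := fun g r =>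
    ∫ τ, e g τ * (deriv f ⟪g, S.v τ⟫ * ⟪dir2 r, S.v τ⟫) ∂ν
  have hem : Measurable (Function.uncurry e) := (hf.meas.comp hfl).exp
  have hZlo : ∀ g, EB ≤ Z g := fun g =>
    le_trans (le_of_eq (by simp)) (integral_mono (integrable_const EB) ((hwu g).integrable (μ := ν))
      fun y => (expW_mem hf _).1)
  have hZ : ∀ g, 0 < Z g := fun g => hEB.trans_le (hZlo g)
  have hUi : ∀ g r τ, |e g τ * (deriv f ⟪g, S.v τ⟫ * ⟪dir2 r, S.v τ⟫)| ≤ EP * (b * 2) := fun g r τ => by
    rw [abs_mul, abs_of_nonneg (hep g τ).1, abs_mul, hdin]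
    exact mul_le_mul (hep g τ).2 (mul_le_mul (hb _) (hsub (r 1) τ (r 0)) (abs_nonneg _) hb0)
      (by positivity) hEP.le
  have hUb : ∀ g r, |U g r| ≤ EP * (b * 2) := fun g r => by
    rw [← Real.norm_eq_abs]
    exact (norm_integral_le_of_norm_le_const (Eventually.of_forall fun τ =>
      (Real.norm_eq_abs _).trans_le (hUi g r τ))).trans_eq (by simp)
  have hdm : Measurable dir2 :=
    (S.measV.comp (measurable_pi_apply 1)).sub ((hv 0 1).smul (S.measV.comp (measurable_pi_apply 0)))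
  have hUm : Measurable (Function.uncurry U) := by
    have hg : Measurable fun w : (S.E × (Fin 2 → S.X)) × S.X => (w.1.1, w.2) :=
      (measurable_fst.comp measurable_fst).prodMk measurable_snd
    have hm : Measurable (Function.uncurry fun (q : S.E × (Fin 2 → S.X)) (τ : S.X) =>
        e q.1 τ * (deriv f ⟪q.1, S.v τ⟫ * ⟪dir2 q.2, S.v τ⟫)) :=
      (hem.comp hg).mul ((hf'm.comp (hfl.comp hg)).mul
        ((hdm.comp (measurable_snd.comp measurable_fst)).inner (S.measV.comp measurable_snd)))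
    exact (hm.stronglyMeasurable.integral_prod_right').measurable
  have hZm : Measurable Z := (hem.stronglyMeasurable.integral_prod_right').measurable
  set G : (Fin 2 → S.X) → S.E → ℝ := fun r g =>
    φ ⟪S.v (r 0), S.v (r 1)⟫ * (e g (r 0) * e g (r 1) * deriv f ⟪g, S.v (r 0)⟫ / Z g ^ 2) with hG
  set G' : (Fin 2 → S.X) → S.E → ℝ := fun r g =>
    e g (r 0) * e g (r 1) * Θ2 (ω, g) r / Z g ^ 2 -
      2 * (φ ⟪S.v (r 0), S.v (r 1)⟫ * (e g (r 0) * e g (r 1) * deriv f ⟪g, S.v (r 0)⟫)) * U g r /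
        Z g ^ 3 with hG'
  have hee : ∀ g (r : Fin 2 → S.X), |e g (r 0) * e g (r 1)| ≤ EP * EP := fun g r => by
    rw [abs_mul, abs_of_nonneg (hep g _).1, abs_of_nonneg (hep g _).1]
    exact mul_le_mul (hep g _).2 (hep g _).2 (hep g _).1 hEP.le
  have hnum : ∀ g (r : Fin 2 → S.X), |φ ⟪S.v (r 0), S.v (r 1)⟫ *
      (e g (r 0) * e g (r 1) * deriv f ⟪g, S.v (r 0)⟫)| ≤ D * (EP * EP * b) := fun g r => by
    rw [abs_mul, abs_mul (e g (r 0) * e g (r 1))]
    exact mul_le_mul (hφb _ _) (mul_le_mul (hee g r) (hb _) (abs_nonneg _) (by positivity))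
      (by positivity) hD
  set C := D * (EP * EP * b) / EB ^ 2 + EP * EP * (D * 2 * (b * b)) / EB ^ 2 +
    2 * (D * (EP * EP * b)) * (EP * (b * 2)) / EB ^ 3 with hC
  have hGb : ∀ r g, |G r g| ≤ C := fun r g => by
    simp only [hG]
    rw [mul_div_assoc', abs_div, abs_of_pos (pow_pos (hZ g) 2)]
    refine (div_le_div₀ (by positivity) (hnum g r) (by positivity)
      (pow_le_pow_left₀ hEB.le (hZlo g) 2)).trans ?_
    have : 0 ≤ EP * EP * (D * 2 * (b * b)) / EB ^ 2 := by positivity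
    have : 0 ≤ 2 * (D * (EP * EP * b)) * (EP * (b * 2)) / EB ^ 3 := by positivity
    rw [hC]
    linarith
  have hG'b : ∀ r g, |G' r g| ≤ C := fun r g => by
    simp only [hG']
    refine (abs_sub _ _).trans ?_
    rw [abs_div, abs_div, abs_of_pos (pow_pos (hZ g) 3), abs_of_pos (pow_pos (hZ g) 2)]
    have h1 : |e g (r 0) * e g (r 1) * Θ2 (ω, g) r| / Z g ^ 2 ≤
        EP * EP * (D * 2 * (b * b)) / EB ^ 2 := by
      refine div_le_div₀ (by positivity) ?_ (by positivity) (pow_le_pow_left₀ hEB.le (hZlo g) 2)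
      rw [abs_mul]
      exact mul_le_mul (hee g r) (hΘ2b _ r) (abs_nonneg _) (by positivity)
    have h2 : |2 * (φ ⟪S.v (r 0), S.v (r 1)⟫ * (e g (r 0) * e g (r 1) * deriv f ⟪g, S.v (r 0)⟫)) *
        U g r| / Z g ^ 3 ≤ 2 * (D * (EP * EP * b)) * (EP * (b * 2)) / EB ^ 3 := by
      refine div_le_div₀ (by positivity) ?_ (by positivity) (pow_le_pow_left₀ hEB.le (hZlo g) 3)
      rw [abs_mul, abs_mul, abs_two]
      exact mul_le_mul (mul_le_mul_of_nonneg_left (hnum g r) zero_le_two) (hUb g r) (abs_nonneg _)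
        (by positivity)
    have : 0 ≤ D * (EP * EP * b) / EB ^ 2 := by positivity
    rw [hC]
    linarith
  have hr0 : ∀ i : Fin 2, Measurable fun q : S.E × (Fin 2 → S.X) => (q.1, q.2 i) :=
    fun i => measurable_fst.prodMk ((measurable_pi_apply i).comp measurable_snd)
  have hnm : Measurable fun q : S.E × (Fin 2 → S.X) => φ ⟪S.v (q.2 0), S.v (q.2 1)⟫ *
      (e q.1 (q.2 0) * e q.1 (q.2 1) * deriv f ⟪q.1, S.v (q.2 0)⟫) :=
    ((hφv 0 1).comp measurable_snd).mul
      (((hem.comp (hr0 0)).mul (hem.comp (hr0 1))).mul (hf'm.comp (hfl.comp (hr0 0))))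
  have hGm : Measurable (Function.uncurry fun (g : S.E) r => G r g) :=
    ((hφv 0 1).comp measurable_snd).mul ((((hem.comp (hr0 0)).mul (hem.comp (hr0 1))).mul
      (hf'm.comp (hfl.comp (hr0 0)))).div ((hZm.comp measurable_fst).pow_const 2))
  have hG'm : Measurable (Function.uncurry fun (g : S.E) r => G' r g) :=
    ((((hem.comp (hr0 0)).mul (hem.comp (hr0 1))).mul (hΘ2m.comp ((measurable_const.prodMk
      measurable_fst).prodMk measurable_snd))).div ((hZm.comp measurable_fst).pow_const 2)).sub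
    (((hnm.const_mul 2).mul hUm).div ((hZm.comp measurable_fst).pow_const 3))
  have hderiv : ∀ r g, HasDerivAt (fun t : ℝ => G r (g + t • dir2 r)) (G' r g) 0 := fun r g => by
    have hl : ∀ τ t, HasDerivAt (fun t : ℝ => ⟪g + t • dir2 r, S.v τ⟫) ⟪dir2 r, S.v τ⟫ t := fun τ t => by
      simp only [inner_add_left, real_inner_smul_left]
      simpa using ((hasDerivAt_id' t).mul_const ⟪dir2 r, S.v τ⟫).const_add ⟪g, S.v τ⟫
    have he' : ∀ τ t, HasDerivAt (fun t : ℝ => e (g + t • dir2 r) τ)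
        (e (g + t • dir2 r) τ * (deriv f ⟪g + t • dir2 r, S.v τ⟫ * ⟪dir2 r, S.v τ⟫)) t := fun τ t => by
      have := (HasDerivAt.comp t (h₂ := f) (hfd _).hasDerivAt (hl τ t)).exp
      simpa [he, expW, Function.comp_def] using this
    have hZ' : HasDerivAt (fun t : ℝ => Z (g + t • dir2 r)) (U g r) 0 := by
      have h := (hasDerivAt_integral_of_dominated_loc_of_deriv_le (μ := ν)
        (F := fun t τ => e (g + t • dir2 r) τ)
        (F' := fun t τ => e (g + t • dir2 r) τ * (deriv f ⟪g + t • dir2 r, S.v τ⟫ * ⟪dir2 r, S.v τ⟫))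
        (x₀ := (0 : ℝ)) (bound := fun _ => EP * (b * 2)) univ_mem
        (Eventually.of_forall fun t => (hwu _).meas.aestronglyMeasurable) (hwu _).integrable
        (((hwu _).meas.mul ((hf'm.comp (measurable_const.inner S.measV)).mul
          (measurable_const.inner S.measV))).aestronglyMeasurable)
        (Eventually.of_forall fun τ t _ => (Real.norm_eq_abs _).trans_le (hUi _ r τ)) (integrable_const _)
        (Eventually.of_forall fun τ t _ => he' τ t)).2
      simpa [U] using h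
    have hd0 : ⟪dir2 r, S.v (r 0)⟫ = 0 := by
      rw [hdin, real_inner_self_eq_norm_sq, S.unit, real_inner_comm]
      ring
    have hd1 : ⟪dir2 r, S.v (r 1)⟫ = 1 - ⟪S.v (r 0), S.v (r 1)⟫ ^ 2 := by
      rw [hdin, real_inner_self_eq_norm_sq, S.unit]
      ring
    have hf0 : (fun t : ℝ => deriv f ⟪g + t • dir2 r, S.v (r 0)⟫) =
        fun _ => deriv f ⟪g, S.v (r 0)⟫ := by
      funext t
      rw [inner_add_left, real_inner_smul_left, hd0, mul_zero, add_zero]
    have hnumd : HasDerivAt (fun t : ℝ => e (g + t • dir2 r) (r 0) * e (g + t • dir2 r) (r 1) *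
        deriv f ⟪g + t • dir2 r, S.v (r 0)⟫)
        (e g (r 0) * e g (r 1) *
          ((1 - ⟪S.v (r 0), S.v (r 1)⟫ ^ 2) * deriv f ⟪g, S.v (r 1)⟫) * deriv f ⟪g, S.v (r 0)⟫) 0 := by
      refine (((he' (r 0) 0).fun_mul (he' (r 1) 0)).fun_mul
        (show HasDerivAt (fun t : ℝ => deriv f ⟪g + t • dir2 r, S.v (r 0)⟫) 0 0 by
          rw [hf0]; exact hasDerivAt_const _ _)).congr_deriv ?_
      simp only [zero_smul, add_zero, hd0, hd1]
      ring
    refine ((hnumd.fun_div (hZ'.fun_pow 2) (pow_ne_zero _ (hZ _).ne')).const_mul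
      (φ ⟪S.v (r 0), S.v (r 1)⟫)).congr_deriv ?_
    simp only [hG', Θ2, zero_smul, add_zero]
    have := (hZ g).ne'
    field_simp
    ring
  have key : ∀ r, ∫ g, ⟪g, dir2 r⟫ * G r g ∂stdGaussian S.E = ∫ g, G' r g ∂stdGaussian S.E := fun r =>
    stein_vec (dir2 r) (hGm.comp (measurable_id.prodMk measurable_const))
      (hG'm.comp (measurable_id.prodMk measurable_const)) (hderiv r) (hGb r) (hG'b r)
  have hL : ∀ g, J1 (ω, g) = ∫ r, ⟪g, dir2 r⟫ * G r g ∂ν2 := fun g => by
    simp only [J1, wg]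
    rw [integral_pi_gibbs_mul (S.wt ω) (hwu g), ← integral_div]
    refine integral_congr_ae (Eventually.of_forall fun r => ?_)
    simp only [hG, Θ1, hdir2, Fin.prod_univ_two, inner_sub_right, real_inner_smul_right, Z]
    ring
  have hR : ∀ g, J2 (ω, g) - 2 * J3 (ω, g) = ∫ r, G' r g ∂ν2 := fun g => by
    simp only [J2, J3, wg]
    rw [integral_pi_gibbs_mul (S.wt ω) (hwu g), integral_pi_gibbs_mul (S.wt ω) (hwu g),
      integral_pi_last (n := 2) (b := EP * EP * EP * (D * 2 * (b * b)))]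
    · simp only [Fin.prod_univ_two, Fin.prod_univ_three]
      have m0 : Measurable fun r : Fin 2 → S.X => (g, r) := measurable_const.prodMk measurable_id
      rw [← integral_div, ← integral_div, ← integral_const_mul, ← integral_sub]
      · refine integral_congr_ae (Eventually.of_forall fun r => ?_)
        have hu : U g r * (φ ⟪S.v (r 0), S.v (r 1)⟫ * (e g (r 0) * e g (r 1) *
            deriv f ⟪g, S.v (r 0)⟫)) =
            ∫ τ, e g (r 0) * e g (r 1) * e g τ * Θ3 (ω, g) (Fin.snoc r τ) ∂ν := by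
          simp only [U]
          rw [← integral_mul_const]
          refine integral_congr_ae (Eventually.of_forall fun τ => ?_)
          have s0 : (Fin.snoc r τ : Fin 3 → S.X) 0 = r 0 := rfl
          have s1 : (Fin.snoc r τ : Fin 3 → S.X) 1 = r 1 := rfl
          have s2 : (Fin.snoc r τ : Fin 3 → S.X) 2 = τ := rfl
          simp only [Θ3, s0, s1, s2, hdin]
          ring
        simp only [hG', Z]
        rw [show (∫ τ, e g ((Fin.snoc r τ : Fin 3 → S.X) 0) * e g ((Fin.snoc r τ : Fin 3 → S.X) 1) *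
            e g ((Fin.snoc r τ : Fin 3 → S.X) 2) * Θ3 (ω, g) (Fin.snoc r τ) ∂ν) = _ from hu.symm]
        ring
      · exact Integrable.div_const (integrable_of_bdd (((hem.comp (hr0 0)).mul (hem.comp (hr0 1))).comp
          m0 |>.mul (hΘ2m.comp (measurable_const.prodMk measurable_id)))
          (b := EP * EP * (D * 2 * (b * b))) fun r => by
            show |e g (r 0) * e g (r 1) * Θ2 (ω, g) r| ≤ _
            rw [abs_mul]
            exact mul_le_mul (hee g r) (hΘ2b _ r) (abs_nonneg _) (by positivity)) _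
      · refine (Integrable.div_const ?_ _).const_mul 2
        have h3 : Measurable fun q : (Fin 2 → S.X) × S.X => (Fin.snoc q.1 q.2 : Fin 3 → S.X) := by
          refine measurable_pi_lambda _ fun i => ?_
          fin_cases i
          exacts [(measurable_pi_apply 0).comp measurable_fst, (measurable_pi_apply 1).comp measurable_fst,
            measurable_snd]
        have hq : ∀ i : Fin 3, Measurable fun q : (Fin 2 → S.X) × S.X =>
            e g ((Fin.snoc q.1 q.2 : Fin 3 → S.X) i) := fun i =>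
          (hwu g).meas.comp ((measurable_pi_apply i).comp h3)
        refine integrable_of_bdd ?_ (b := EP * EP * EP * (D * 2 * (b * b))) fun r => ?_
        · exact (Measurable.stronglyMeasurable
            ((((hq 0).mul (hq 1)).mul (hq 2)).mul
              (hΘ3m.comp (measurable_const.prodMk h3)))).integral_prod_right'.measurable
        · rw [← Real.norm_eq_abs]
          refine (norm_integral_le_of_norm_le_const (Eventually.of_forall fun τ => ?_)).trans_eq
            (by rw [probReal_univ, mul_one])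
          rw [Real.norm_eq_abs]
          simp only [abs_mul, abs_of_nonneg (hep g _).1]
          exact mul_le_mul (mul_le_mul (mul_le_mul (hep g _).2 (hep g _).2 (hep g _).1 hEP.le)
            (hep g _).2 (hep g _).1 (by positivity)) (hΘ3b _ _) (abs_nonneg _) (by positivity)
    · exact (Finset.measurable_prod _ fun l _ => (hwu g).meas.comp (measurable_pi_apply l)).mul
        (hΘ3m.comp (measurable_const.prodMk measurable_id))
    · intro a
      simp only [Fin.prod_univ_three, abs_mul]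
      refine mul_le_mul ?_ (hΘ3b _ _) (abs_nonneg _) (by positivity)
      simp only [abs_of_nonneg (hep g _).1]
      exact mul_le_mul (mul_le_mul (hep g _).2 (hep g _).2 (hep g _).1 hEP.le) (hep g _).2 (hep g _).1
        (by positivity)
  have hGp : Integrable (Function.uncurry fun (g : S.E) r => ⟪g, dir2 r⟫ * G r g)
      ((stdGaussian S.E).prod ν2) :=
    (((integrable_norm_pow (E := S.E) 1).mul_const (2 * C)).comp_fst ν2).mono'
      (((measurable_fst.inner (hdm.comp measurable_snd))).mul hGm).aestronglyMeasurable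
      (Eventually.of_forall fun q => by
        simp only [Function.uncurry, Real.norm_eq_abs, abs_mul, pow_one]
        rw [← mul_assoc]
        refine mul_le_mul ((abs_real_inner_le_norm _ _).trans
          (mul_le_mul_of_nonneg_left ?_ (norm_nonneg _))) (hGb _ _) (abs_nonneg _) (by positivity)
        refine (norm_sub_le _ _).trans ?_
        rw [norm_smul, S.unit, S.unit, mul_one, Real.norm_eq_abs]
        linarith [hin (q.2 0) (q.2 1)])
  have hG'p : Integrable (Function.uncurry fun (g : S.E) r => G' r g) ((stdGaussian S.E).prod ν2) :=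
    Integrable.of_bound hG'm.aestronglyMeasurable C
      (Eventually.of_forall fun q => (Real.norm_eq_abs _).trans_le (hG'b _ _))
  simp only [hL, hR]
  rw [integral_integral_swap hGp, integral_integral_swap hG'p]
  exact integral_congr_ae (Eventually.of_forall key)

end Vale.Agent.P157F
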