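import Vale.Agent.P157.Low.SphCavityGain
import Vale.Agent.P157.Low.Telescope
import Vale.Agent.P157F.Sph.LoopArr.Ibp
import Vale.Agent.P157F.Sph.LoopArr.Pert
import Vale.Agent.P157F.Sph.LoopArr.Tilt
import Vale.Agent.P157F.Sph.LoopArr.Palm

/-!
P157, sphere: rotation invariance and one added pattern in a finite system.
-/

namespace Vale.Agent.P157F

open MeasureTheory ProbabilityTheory Filter Vale.Agent.P157 Vale.Agent.P157.Low
open scoped RealInnerProductSpace Topology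

/-- An overlap clipped to `[-1, 1]`. -/
noncomputable def clip1 (t : ℝ) : ℝ := max (-1) (min 1 t)

lemma continuous_clip1 : Continuous clip1 := by unfold clip1; fun_prop

lemma abs_clip1_le (t : ℝ) : |clip1 t| ≤ 1 :=
  abs_le.2 ⟨le_max_left _ _, max_le (by norm_num) (min_le_left _ _)⟩

lemma clip1_of_abs_le {t : ℝ} (h : |t| ≤ 1) : clip1 t = t := by
  obtain ⟨h1, h2⟩ := abs_le.1 h
  simp [clip1, min_eq_right h2, max_eq_right h1]

variable {f : ℝ → ℝ} {B : ℝ} {N P : ℕ}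

/-- The overlap of the first two replicas. -/
noncomputable def ovl2 (r : Fin 2 → Sph (N + 1)) : ℝ := ⟪(r 0 : Sp (N + 1)), (r 1 : Sp (N + 1))⟫

/-- The tangent at the first point towards the second. -/
noncomputable def tang (θ b : Sp (N + 1)) : Sp (N + 1) := b - ⟪θ, b⟫ • θ

/-- The moved feature at two points. -/
noncomputable def pertW2 (φ : ℝ → ℝ) (x : Fin P → ℝ) (r : Fin 2 → Sph (N + 1)) :
    PertSpace (N + 1) P :=
  φ (ovl2 r) • fderiv ℝ (pertVec x) (r 0 : Sp (N + 1)) (tang (r 0 : Sp (N + 1)) (r 1 : Sp (N + 1)))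

/-- The log-weight of a configuration, on the whole space. -/
noncomputable def energy (f : ℝ → ℝ) (x : Fin P → ℝ) (M : ℕ) (g : ℕ → Sp (N + 1))
    (J : PertSpace (N + 1) P) (θ : Sp (N + 1)) : ℝ :=
  (∑ a ∈ Finset.range M, f ⟪g a, θ⟫) + strength N * ⟪J, pertVec x θ⟫

lemma abs_ovl2_le (r : Fin 2 → Sph (N + 1)) : |ovl2 r| ≤ 1 :=
  (abs_real_inner_le_norm _ _).trans_eq (by simp [mem_sphere_zero_iff_norm.1 (r _).2])

lemma continuous_ovl2 : Continuous (ovl2 (N := N)) := by unfold ovl2; fun_prop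

lemma tang_props {θ b : Sp (N + 1)} (hθ : ‖θ‖ = 1) (hb : ‖b‖ = 1) :
    ⟪θ, tang θ b⟫ = 0 ∧ ⟪tang θ b, b⟫ = 1 - ⟪θ, b⟫ ^ 2 ∧ ‖tang θ b‖ ≤ 1 := by
  have h2 : ⟪tang θ b, b⟫ = 1 - ⟪θ, b⟫ ^ 2 := by
    rw [tang, inner_sub_left, real_inner_smul_left, real_inner_self_eq_norm_sq, hb]
    ring
  have h1 : ⟪θ, tang θ b⟫ = 0 := by
    rw [tang, inner_sub_right, real_inner_smul_right, real_inner_self_eq_norm_sq, hθ]
    ring
  refine ⟨h1, h2, ?_⟩
  have h3 : ‖tang θ b‖ ^ 2 = 1 - ⟪θ, b⟫ ^ 2 := by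
    rw [← real_inner_self_eq_norm_sq]
    conv_lhs => arg 2; rw [tang]
    rw [inner_sub_left, real_inner_smul_left, h1, real_inner_comm, h2]
    ring
  nlinarith [norm_nonneg (tang θ b), sq_nonneg ⟪θ, b⟫]

lemma continuous_tang2 : Continuous fun r : Fin 2 → Sph (N + 1) =>
    ((r 0 : Sp (N + 1)), tang (r 0 : Sp (N + 1)) (r 1 : Sp (N + 1))) := by
  unfold tang; fun_prop

/-- Rotation invariance for a weight on the sphere. -/
lemma rot_rep {w : Sph (N + 1) → ℝ} (hw : Wt w) {H : Sp (N + 1) → ℝ} (hH : ContDiff ℝ 1 H)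
    (hwH : ∀ θ : Sph (N + 1), w θ = Real.exp (H θ)) {φ : ℝ → ℝ} (hφ : ContDiff ℝ 1 φ) :
    (N : ℝ) * sphRep (n := 2) w (fun r => ovl2 r * φ (ovl2 r)) =
      sphRep (n := 2) w (fun r => deriv φ (ovl2 r) * (1 - ovl2 r ^ 2) +
        φ (ovl2 r) * fderiv ℝ H (r 0 : Sp (N + 1)) (tang (r 0 : Sp (N + 1)) (r 1 : Sp (N + 1)))) := by
  set ν := gibbs (sphereMeasure (N + 1)) w
  have := isProbabilityMeasure_gibbs (μ := sphereMeasure (N + 1)) hw
  have hpair : ∀ F : (Fin 2 → Sph (N + 1)) → ℝ, Continuous F →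
      sphRep w F = ∫ c, ∫ θ, F ![θ, c] ∂ν ∂ν := fun F hF => by
    obtain ⟨C, hC⟩ := isCompact_univ.exists_bound_of_continuousOn hF.continuousOn
    have hm2 : Measurable fun q : Sph (N + 1) × Sph (N + 1) => F ![q.1, q.2] :=
      hF.measurable.comp (MeasurableEquiv.finTwoArrow.symm.measurable)
    refine Eq.trans ?_ (integral_prod_symm (fun q : Sph (N + 1) × Sph (N + 1) => F ![q.1, q.2])
      (integrable_of_bdd hm2 fun q => (Real.norm_eq_abs _).symm.trans_le (hC _ (Set.mem_univ _))))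
    show ∫ r, F r ∂Measure.pi (fun _ : Fin 2 => ν) = _
    rw [← (measurePreserving_finTwoArrow ν).integral_comp
      MeasurableEquiv.finTwoArrow.measurableEmbedding
      (fun q : Sph (N + 1) × Sph (N + 1) => F ![q.1, q.2])]
    refine integral_congr_ae (Eventually.of_forall fun r => congrArg F ?_)
    funext i
    fin_cases i <;> rfl
  have hDc : Continuous fun r : Fin 2 → Sph (N + 1) =>
      fderiv ℝ H (r 0 : Sp (N + 1)) (tang (r 0 : Sp (N + 1)) (r 1 : Sp (N + 1))) :=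
    (hH.continuous_fderiv_apply one_ne_zero).comp continuous_tang2
  have hφ' : Continuous (deriv φ) := hφ.continuous_deriv le_rfl
  have h1 : Continuous fun r : Fin 2 → Sph (N + 1) => (N : ℝ) * (ovl2 r * φ (ovl2 r)) :=
    continuous_const.mul (continuous_ovl2.mul (hφ.continuous.comp continuous_ovl2))
  have h2 : Continuous fun r : Fin 2 → Sph (N + 1) => deriv φ (ovl2 r) * (1 - ovl2 r ^ 2) +
      φ (ovl2 r) * fderiv ℝ H (r 0 : Sp (N + 1)) (tang (r 0 : Sp (N + 1)) (r 1 : Sp (N + 1))) :=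
    ((hφ'.comp continuous_ovl2).mul (continuous_const.sub (continuous_ovl2.pow 2))).add
      ((hφ.continuous.comp continuous_ovl2).mul hDc)
  rw [← sphRep_const_mul, hpair _ h1, hpair _ h2]
  refine integral_congr_ae (Eventually.of_forall fun c => ?_)
  have hc : ‖(c : Sp (N + 1))‖ = 1 := mem_sphere_zero_iff_norm.1 c.2
  set G : Sp (N + 1) → ℝ := fun θ => φ ⟪θ, (c : Sp (N + 1))⟫ * Real.exp (H θ) with hG
  have hGc : ContDiff ℝ 1 G := (hφ.comp (contDiff_id.inner ℝ contDiff_const)).mul hH.exp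
  have hder : ∀ θ : Sph (N + 1),
      fderiv ℝ G (θ : Sp (N + 1)) (tang (θ : Sp (N + 1)) (c : Sp (N + 1))) =
        w θ * (deriv φ (ovl2 ![θ, c]) * (1 - ovl2 ![θ, c] ^ 2) + φ (ovl2 ![θ, c]) *
          fderiv ℝ H (θ : Sp (N + 1)) (tang (θ : Sp (N + 1)) (c : Sp (N + 1)))) := fun θ => by
    set V := tang (θ : Sp (N + 1)) (c : Sp (N + 1)) with hV
    have hl : HasDerivAt (fun t : ℝ => (θ : Sp (N + 1)) + t • V) V 0 := by
      simpa using ((hasDerivAt_id' (0 : ℝ)).smul_const V).const_add (θ : Sp (N + 1))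
    have hline : ∀ {K : Sp (N + 1) → ℝ}, ContDiff ℝ 1 K →
        HasDerivAt (fun t : ℝ => K ((θ : Sp (N + 1)) + t • V)) (fderiv ℝ K (θ : Sp (N + 1)) V) 0 :=
      fun {K} hK => by
        have h := (hK.differentiable one_ne_zero ((θ : Sp (N + 1)) + (0 : ℝ) • V)).hasFDerivAt
        simpa [Function.comp_def] using h.comp_hasDerivAt (0 : ℝ) hl
    have hφd : HasDerivAt (fun t : ℝ => φ ⟪(θ : Sp (N + 1)) + t • V, (c : Sp (N + 1))⟫)
        (deriv φ ⟪(θ : Sp (N + 1)), (c : Sp (N + 1))⟫ * ⟪V, (c : Sp (N + 1))⟫) 0 := by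
      have h := HasDerivAt.comp (0 : ℝ) (h₂ := φ) (hφ.differentiable one_ne_zero _).hasDerivAt
        (hl.inner ℝ (hasDerivAt_const (0 : ℝ) (c : Sp (N + 1))))
      simpa [Function.comp_def] using h
    rw [(hline hGc).unique (hφd.fun_mul (hline hH).exp)]
    simp only [zero_smul, add_zero, ovl2, Matrix.cons_val_zero, Matrix.cons_val_one]
    rw [← hwH θ, hV, (tang_props (mem_sphere_zero_iff_norm.1 θ.2) hc).2.1]
    ring
  have hi := sphere_ibp hGc hc
  simp only [ν]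
  rw [integral_gibbs hw, integral_gibbs hw]
  congr 1
  have e1 : ∀ θ : Sph (N + 1), w θ * ((N : ℝ) * (ovl2 ![θ, c] * φ (ovl2 ![θ, c]))) =
      (N : ℝ) * (⟪(θ : Sp (N + 1)), (c : Sp (N + 1))⟫ * G θ) := fun θ => by
    simp only [hG, ovl2, ← hwH, Matrix.cons_val_zero, Matrix.cons_val_one]
    ring
  simp only [e1, integral_const_mul]
  rw [← hi]
  exact integral_congr_ae (Eventually.of_forall fun θ => (hder θ).trans (by simp))

/-- The log-weight is smooth and its derivative is the sum of the fields and of the perturbation. -/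
lemma energy_deriv (hd : BdD 1 f) (x : Fin P → ℝ) (M : ℕ) (g : ℕ → Sp (N + 1))
    (J : PertSpace (N + 1) P) :
    ContDiff ℝ 1 (energy f x M g J) ∧ ∀ θ V : Sp (N + 1), fderiv ℝ (energy f x M g J) θ V =
      (∑ a ∈ Finset.range M, deriv f ⟪g a, θ⟫ * ⟪g a, V⟫) +
        strength N * ⟪J, fderiv ℝ (pertVec x) θ V⟫ := by
  obtain ⟨hfd, -, hf'c, -⟩ := hd
  have hf1 : ContDiff ℝ 1 f := contDiff_one_iff_deriv.2 ⟨hfd, hf'c⟩
  have hc : ContDiff ℝ 1 (energy f x M g J) :=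
    (ContDiff.sum (s := Finset.range M) fun a _ => hf1.comp (contDiff_const.inner ℝ contDiff_id)).add
      (contDiff_const.mul (contDiff_const.inner ℝ (contDiff_pertVec x)))
  refine ⟨hc, fun θ V => ?_⟩
  have hl : HasDerivAt (fun t : ℝ => θ + t • V) V 0 := by
    simpa using ((hasDerivAt_id' (0 : ℝ)).smul_const V).const_add θ
  have hline : HasDerivAt (fun t : ℝ => energy f x M g J (θ + t • V))
      (fderiv ℝ (energy f x M g J) θ V) 0 := by
    have h := (hc.differentiable one_ne_zero (θ + (0 : ℝ) • V)).hasFDerivAt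
    simpa [Function.comp_def] using h.comp_hasDerivAt (0 : ℝ) hl
  have hP : HasDerivAt (fun t : ℝ => pertVec x (θ + t • V)) (fderiv ℝ (pertVec x) θ V) 0 := by
    have h := ((contDiff_pertVec x).differentiable one_ne_zero (θ + (0 : ℝ) • V)).hasFDerivAt
    simpa [Function.comp_def] using h.comp_hasDerivAt (0 : ℝ) hl
  have hfa : ∀ a, HasDerivAt (fun t : ℝ => f ⟪g a, θ + t • V⟫) (deriv f ⟪g a, θ⟫ * ⟪g a, V⟫) 0 := fun a => by
    have h := HasDerivAt.comp (0 : ℝ) (h₂ := f) (hfd _).hasDerivAt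
      ((hasDerivAt_const (0 : ℝ) (g a)).inner ℝ hl)
    simpa [Function.comp_def] using h
  have hJ : HasDerivAt (fun t : ℝ => ⟪J, pertVec x (θ + t • V)⟫) ⟪J, fderiv ℝ (pertVec x) θ V⟫ 0 := by
    simpa using (hasDerivAt_const (0 : ℝ) J).inner ℝ hP
  exact hline.unique ((HasDerivAt.fun_sum fun a _ => hfa a).fun_add (hJ.const_mul (strength N)))

/-- The patterns along the tangent. -/
noncomputable def patTang {hf : Pot f B} {lam : ℝ} {k : ℕ} {x : Fin P → ℝ} (φ : ℝ → ℝ)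
    (ω : (sphSys hf N lam k x).Ω) (r : Fin 2 → Sph (N + 1)) : ℝ :=
  φ (ovl2 r) * (∑ a ∈ Finset.range (sphCnt ω), deriv f (sphPat ω a (r 0)) * sphPat ω a (r 1)) -
    φ (ovl2 r) * ovl2 r * (∑ a ∈ Finset.range (sphCnt ω), deriv f (sphPat ω a (r 0)) * sphPat ω a (r 0))

lemma sphPat_sum_bound {hf : Pot f B} {lam : ℝ} {k : ℕ} {x : Fin P → ℝ} {b : ℝ}
    (hb : ∀ y, |deriv f y| ≤ b) (ω : (sphSys hf N lam k x).Ω) (r : Fin 2 → Sph (N + 1)) (l : Fin 2) :
    |∑ a ∈ Finset.range (sphCnt ω), deriv f (sphPat ω a (r 0)) * sphPat ω a (r l)| ≤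
      b * ∑ a ∈ Finset.range (sphCnt ω), ‖ω.1.2 a‖ := by
  rw [Finset.mul_sum]
  refine (Finset.abs_sum_le_sum_abs _ _).trans (Finset.sum_le_sum fun a _ => ?_)
  rw [abs_mul]
  refine mul_le_mul (hb _) ((abs_real_inner_le_norm _ _).trans_eq ?_) (abs_nonneg _)
    ((abs_nonneg _).trans (hb 0))
  rw [mem_sphere_zero_iff_norm.1 (r l).2, mul_one]

/-- The patterns along the tangent, on average. -/
lemma avgRep_patTang (hf : Pot f B) (hd : BdD 1 f) (N : ℕ) {lam : ℝ} (hl : 0 ≤ lam) (x : Fin P → ℝ)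
    {φ : ℝ → ℝ} (hφ : Continuous φ) {D : ℝ} (hD : ∀ t, |t| ≤ 1 → |φ t| ≤ D) :
    Integrable (Function.uncurry (patTang (hf := hf) (lam := lam) (k := 0) (x := x) φ))
        ((sphSys hf N lam 0 x).repLaw 2) ∧
    (sphSys hf N lam 0 x).avgRep 2 (patTang φ) =
      lam * (((sphSys hf N lam 0 x).tiltF hf).avgRep 2 (fun p (r : Fin 2 → Sph (N + 1)) =>
          φ ⟪(r 0 : Sp (N + 1)), (r 1 : Sp (N + 1))⟫ * (1 - ⟪(r 0 : Sp (N + 1)), (r 1 : Sp (N + 1))⟫ ^ 2) *
            (deriv f ⟪p.2, (r 0 : Sp (N + 1))⟫ * deriv f ⟪p.2, (r 1 : Sp (N + 1))⟫)) -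
        2 * ((sphSys hf N lam 0 x).tiltF hf).avgRep 3 (fun p (r : Fin 3 → Sph (N + 1)) =>
          φ ⟪(r 0 : Sp (N + 1)), (r 1 : Sp (N + 1))⟫ *
              (⟪(r 1 : Sp (N + 1)), (r 2 : Sp (N + 1))⟫ -
                ⟪(r 0 : Sp (N + 1)), (r 1 : Sp (N + 1))⟫ * ⟪(r 0 : Sp (N + 1)), (r 2 : Sp (N + 1))⟫) *
            (deriv f ⟪p.2, (r 0 : Sp (N + 1))⟫ * deriv f ⟪p.2, (r 2 : Sp (N + 1))⟫))) := by
  obtain ⟨-, -, hf'c, b, hb⟩ := id hd
  have hb0 : 0 ≤ b := (abs_nonneg _).trans (hb 0)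
  have hf'm : Measurable (deriv f) := hf'c.measurable
  have hD0 : 0 ≤ D := (abs_nonneg _).trans (hD 0 (by simp))
  have hc2 : Measurable fun M : Mat 2 => clip1 (M 0 1) :=
    continuous_clip1.measurable.comp (by fun_prop)
  have hcl : ∀ r : Fin 2 → Sph (N + 1),
      clip1 ((sphSys hf N lam 0 x).gram r 0 1) = ovl2 r := fun r => clip1_of_abs_le (abs_ovl2_le r)
  have hcl' : ∀ r : Fin 2 → (sphSys hf N lam 0 x).X,
      clip1 ((sphSys hf N lam 0 x).gram r 0 1) = ovl2 r := fun r => clip1_of_abs_le (abs_ovl2_le r)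
  have hφR : ∀ r : Fin 2 → Sph (N + 1), |φ (ovl2 r) * ovl2 r| ≤ D := fun r => by
    rw [abs_mul]
    exact (mul_le_mul (hD _ (abs_ovl2_le r)) (abs_ovl2_le r) (abs_nonneg _) hD0).trans_eq (mul_one D)
  have p1 := sphSys_palm_lin hf hf'm hb N hl x (fun M => φ (clip1 (M 0 1))) (hφ.measurable.comp hc2)
    (C := D) (fun M => hD _ (abs_clip1_le _)) 1
  have p0 := sphSys_palm_lin hf hf'm hb N hl x (fun M => φ (clip1 (M 0 1)) * clip1 (M 0 1))
    ((hφ.measurable.comp hc2).mul hc2) (C := D) (fun M => by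
      rw [abs_mul]
      exact (mul_le_mul (hD _ (abs_clip1_le _)) (abs_clip1_le _) (abs_nonneg _) hD0).trans_eq
        (mul_one D)) 0
  simp only [hcl, hcl'] at p1 p0
  have hom : Measurable (ovl2 (N := N)) := continuous_ovl2.measurable
  have hm1 : Measurable fun r : Fin 2 → Sph (N + 1) => φ (ovl2 r) := hφ.measurable.comp hom
  have hvm : ∀ i : Fin 2, Measurable fun r : Fin 2 → Sph (N + 1) => (r i : Sp (N + 1)) :=
    fun i => measurable_subtype_coe.comp (measurable_pi_apply i)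
  have hsum : ∀ (F : (Fin 2 → Sph (N + 1)) → ℝ), Measurable F → (∀ r, |F r| ≤ D) → ∀ l : Fin 2,
      Integrable (Function.uncurry fun (ω : (sphSys hf N lam 0 x).Ω) r =>
        F r * ∑ a ∈ Finset.range (sphCnt ω), deriv f (sphPat ω a (r 0)) * sphPat ω a (r l))
        ((sphSys hf N lam 0 x).repLaw 2) := fun F hF hFb l =>
    (sphSys hf N lam 0 x).integrable_repLaw_of_le
      (((integrable_sum_norm_pat hf N lam x).const_mul b).const_mul D)
      ((hF.comp measurable_snd).mul (measurable_count (H := fun M g r => ∑ a ∈ Finset.range (M + 0),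
        deriv f ⟪g a, ((r 0 : Sph (N + 1)) : Sp (N + 1))⟫ * ⟪g a, ((r l : Sph (N + 1)) : Sp (N + 1))⟫)
        fun M => Finset.measurable_sum (Finset.range (M + 0)) fun a _ =>
          (hf'm.comp (Measurable.inner ((measurable_pi_apply a).comp measurable_fst)
            ((hvm 0).comp measurable_snd))).mul
          (Measurable.inner ((measurable_pi_apply a).comp measurable_fst) ((hvm l).comp measurable_snd))))
      fun ω r => by
        rw [abs_mul]
        exact mul_le_mul (hFb r) (sphPat_sum_bound hb ω r l) (abs_nonneg _) hD0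
  have i1 := hsum _ hm1 (fun r => hD _ (abs_ovl2_le r)) 1
  have i0 := hsum _ (hm1.mul hom) hφR 0
  refine ⟨i1.sub i0, ?_⟩
  refine Eq.trans ?_ (congrArg (lam * ·) (tiltF_stein_tangent hf hd (sphSys hf N lam 0 x) hφ))
  refine (((sphSys hf N lam 0 x).avgRep_sub i1 i0).trans (congrArg₂ (· - ·) p1 p0)).trans ?_
  refine (mul_sub _ _ _).symm.trans (congrArg (lam * ·) ?_)
  have hlin : ∀ (F : (Fin 2 → Sph (N + 1)) → ℝ), Measurable F → (∀ r, |F r| ≤ D) → ∀ i : Fin 2,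
      Integrable (Function.uncurry fun (p : (sphSys hf N lam 0 x).Ω × Sp (N + 1)) r =>
        F r * (deriv f ⟪p.2, (r 0 : Sp (N + 1))⟫ * ⟪p.2, (r i : Sp (N + 1))⟫))
        (((sphSys hf N lam 0 x).tiltF hf).repLaw 2) := fun F hF hFb i =>
    integrable_tiltF hf (sphSys hf N lam 0 x) (n := 2) (C := D * b) ((hF.comp measurable_snd).mul
      ((hf'm.comp (measurable_tilt_field (sphSys hf N lam 0 x) (0 : Fin 2))).mul
        (measurable_tilt_field (sphSys hf N lam 0 x) i))) fun p r => by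
      rw [abs_mul, abs_mul, mul_assoc D]
      refine mul_le_mul (hFb r) (mul_le_mul (hb _)
        ((abs_inner_unit_le (sphSys hf N lam 0 x) p.2 (r i)).trans ?_) (abs_nonneg _) hb0)
        (by positivity) hD0
      nlinarith [norm_nonneg p.2]
  refine (((sphSys hf N lam 0 x).tiltF hf).avgRep_sub (hlin _ hm1 (fun r => hD _ (abs_ovl2_le r)) 1)
    (hlin _ (hm1.mul hom) hφR 0)).symm.trans ?_
  refine integral_congr_ae (Eventually.of_forall fun p => integral_congr_ae (Eventually.of_forall fun r => ?_))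
  exact (show ∀ a R d u v : ℝ, a * (d * u) - a * R * (d * v) = a * (d * (u - R * v)) from
    fun a R d u v => by ring) _ _ _ _ _

/-- The perturbation along the tangent, on average. -/
lemma avgRep_pertTang (hf : Pot f B) (N : ℕ) (lam : ℝ) (x : Fin P → ℝ) {φ : ℝ → ℝ} (hφ : Continuous φ)
    {D : ℝ} (hD : ∀ t, |t| ≤ 1 → |φ t| ≤ D) :
    Integrable (Function.uncurry fun (ω : (sphSys hf N lam 0 x).Ω) r =>
        strength N * ⟪ω.2, pertW2 φ x r⟫) ((sphSys hf N lam 0 x).repLaw 2) ∧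
    |(sphSys hf N lam 0 x).avgRep 2 (fun ω r => strength N * ⟪ω.2, pertW2 φ x r⟫)| ≤
      4 * strength N ^ 2 * D * (∑ q, |x q| * ((q : ℕ) + 1)) * ∑ q, |x q| := by
  set τ := ∑ q, |x q| * (((q : Fin P) : ℕ) + 1 : ℝ)
  have hτ0 : 0 ≤ τ := Finset.sum_nonneg fun q _ => by positivity
  have hs0 : 0 < strength N := strength_pos N
  have hD0 : 0 ≤ D := (abs_nonneg _).trans (hD 0 (by simp))
  have hun : ∀ θ : Sph (N + 1), ‖(θ : Sp (N + 1))‖ = 1 := fun θ => mem_sphere_zero_iff_norm.1 θ.2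
  have hWc : Continuous (pertW2 (N := N) φ x) :=
    (hφ.comp continuous_ovl2).smul
      (((contDiff_pertVec x).continuous_fderiv_apply one_ne_zero).comp continuous_tang2)
  have hWm : Measurable (pertW2 (N := N) φ x) :=
    ((PiLp.continuous_toLp 2 _).measurable.comp (measurable_pi_lambda _ fun i =>
      (((continuous_apply i).comp (PiLp.continuous_ofLp 2 _)).comp hWc).measurable))
  have hWb : ∀ r : Fin 2 → Sph (N + 1), ‖pertW2 φ x r‖ ≤ D * τ := fun r => by
    obtain ⟨t1, -, t3⟩ := tang_props (hun (r 0)) (hun (r 1))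
    rw [pertW2, norm_smul, Real.norm_eq_abs]
    refine mul_le_mul (hD _ (abs_ovl2_le r)) ((norm_fderiv_pertVec_le x (hun _) t1).trans ?_)
      (norm_nonneg _) hD0
    exact mul_le_of_le_one_right hτ0 t3
  have : SFinite (stdGaussian (PertSpace (N + 1) P)) :=
    have := isProbabilityMeasure_stdGaussian (E := PertSpace (N + 1) P)
    inferInstance
  have hg : Integrable (fun ω : (sphSys hf N lam 0 x).Ω => strength N * (D * τ * ‖ω.2‖))
      (sphSys hf N lam 0 x).law := by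
    have h := (((integrable_norm_pow (E := PertSpace (N + 1) P) 1).comp_snd
      (sphBase hf N lam 0).law).const_mul (D * τ)).const_mul (strength N)
    simp only [pow_one] at h
    exact h
  refine ⟨(sphSys hf N lam 0 x).integrable_repLaw_of_le hg
    (((measurable_snd.comp measurable_fst).inner (hWm.comp measurable_snd)).const_mul _) fun ω r => ?_, ?_⟩
  · rw [abs_mul, abs_of_pos hs0, mul_comm (D * τ)]
    exact mul_le_mul_of_nonneg_left ((abs_real_inner_le_norm _ _).trans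
      (mul_le_mul_of_nonneg_left (hWb r) (norm_nonneg _))) hs0.le
  · have e : (sphSys hf N lam 0 x).avgRep 2 (fun ω r => strength N * ⟪ω.2, pertW2 φ x r⟫) =
        strength N * pertRep (sphBase hf N lam 0) (fun r : Sph (N + 1) => (r : Sp (N + 1)))
          (strength N) x 2 (fun z a => ⟪z.2, pertW2 φ x a⟫) :=
      (integral_congr_ae (Eventually.of_forall fun ω => integral_const_mul (strength N) _)).trans
        (integral_const_mul (strength N) _)
    rw [e, abs_mul, abs_of_pos hs0]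
    refine (mul_le_mul_of_nonneg_left (abs_pert_field_le (sphBase hf N lam 0)
      (fun r : Sph (N + 1) => (r : Sp (N + 1))) measurable_subtype_coe hun hs0.le x (pertW2 φ x) hWm
      (mul_nonneg hD0 hτ0) hWb) hs0.le).trans_eq ?_
    push_cast
    ring

/-- The rotation identity at one disorder. -/
lemma rot_sphSys (hf : Pot f B) (hd : BdD 1 f) (N : ℕ) (lam : ℝ) (x : Fin P → ℝ) {φ : ℝ → ℝ}
    (hφ : ContDiff ℝ 1 φ) (ω : (sphSys hf N lam 0 x).Ω) :
    sphRep ((sphSys hf N lam 0 x).w ω) (fun r : Fin 2 → Sph (N + 1) =>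
        deriv φ (ovl2 r) * (1 - ovl2 r ^ 2) + patTang φ ω r + strength N * ⟪ω.2, pertW2 φ x r⟫) =
      (N : ℝ) * sphRep ((sphSys hf N lam 0 x).w ω) (fun r : Fin 2 → Sph (N + 1) => ovl2 r * φ (ovl2 r)) := by
  obtain ⟨hc, hH⟩ := energy_deriv (f := f) hd x (ω.1.1 + 0) ω.1.2 ω.2
  refine Eq.trans ?_ (rot_rep ((sphSys hf N lam 0 x).wt ω) hc
    (fun θ => (Real.exp_add _ _).symm) hφ).symm
  refine integral_congr_ae (Eventually.of_forall fun r => ?_)
  have e : ∀ a, ⟪ω.1.2 a, tang (r 0 : Sp (N + 1)) (r 1 : Sp (N + 1))⟫ =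
      ⟪ω.1.2 a, (r 1 : Sp (N + 1))⟫ - ovl2 r * ⟪ω.1.2 a, (r 0 : Sp (N + 1))⟫ := fun a => by
    rw [tang, inner_sub_right, real_inner_smul_right]; rfl
  have hs : ∀ (s : Finset ℕ) (u v w : ℕ → ℝ) (a R : ℝ),
      a * (∑ i ∈ s, u i * (v i - R * w i)) = a * (∑ i ∈ s, u i * v i) - a * R * ∑ i ∈ s, u i * w i :=
    fun s u v w a R => by
      simp only [Finset.mul_sum, ← Finset.sum_sub_distrib]
      exact Finset.sum_congr rfl fun i _ => by ring
  simp only [hH, e, patTang, pertW2, sphPat, sphCnt, real_inner_smul_right]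
  rw [mul_add (φ (ovl2 r)), hs]
  ring

/-- The rotation identity on average. -/
lemma rot_avgRep (hf : Pot f B) (hd : BdD 1 f) (N : ℕ) (lam : ℝ) (x : Fin P → ℝ) {φ : ℝ → ℝ}
    (hφ : ContDiff ℝ 1 φ) :
    (sphSys hf N lam 0 x).avgRep 2 (fun ω (r : Fin 2 → Sph (N + 1)) =>
        deriv φ (ovl2 r) * (1 - ovl2 r ^ 2) + patTang φ ω r + strength N * ⟪ω.2, pertW2 φ x r⟫) =
      (N : ℝ) * (sphSys hf N lam 0 x).avgRep 2 (fun _ r => ovl2 r * φ (ovl2 r)) := by
  have h : ∫ ω, sphRep ((sphSys hf N lam 0 x).w ω) (fun r : Fin 2 → Sph (N + 1) =>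
        deriv φ (ovl2 r) * (1 - ovl2 r ^ 2) + patTang φ ω r + strength N * ⟪ω.2, pertW2 φ x r⟫)
        ∂(sphSys hf N lam 0 x).law =
      (N : ℝ) * ∫ ω, sphRep ((sphSys hf N lam 0 x).w ω) (fun r : Fin 2 → Sph (N + 1) =>
        ovl2 r * φ (ovl2 r)) ∂(sphSys hf N lam 0 x).law := by
    rw [← integral_const_mul]
    exact integral_congr_ae (Eventually.of_forall fun ω => rot_sphSys hf hd N lam x hφ ω)
  exact ((sphSys_avgRep hf lam 0 x _).trans h).trans
    (congrArg ((N : ℝ) * ·) (sphSys_avgRep hf lam 0 x fun _ r => ovl2 r * φ (ovl2 r)).symm)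

/-- An average split into a small part, a main part and a small error. -/
lemma abs_avgRep_split (S : Sys) {n : ℕ} {A P J : S.Ω → (Fin n → S.X) → ℝ} {X Y D E : ℝ}
    (iA : Integrable (Function.uncurry A) (S.repLaw n)) (iP : Integrable (Function.uncurry P) (S.repLaw n))
    (iJ : Integrable (Function.uncurry J) (S.repLaw n))
    (h : S.avgRep n (fun ω r => A ω r + P ω r + J ω r) = X) (hP : S.avgRep n P = Y)
    (hA : ∀ ω r, |A ω r| ≤ D) (hJ : |S.avgRep n J| ≤ E) : |X - Y| ≤ D + E := by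
  have iAP : Integrable (Function.uncurry fun ω r => A ω r + P ω r) (S.repLaw n) := iA.add iP
  rw [S.avgRep_add iAP iJ, S.avgRep_add iA iP, hP] at h
  have hA' : |S.avgRep n A| ≤ D := by
    rw [S.avgRep_eq_of_integrable iA, ← Real.norm_eq_abs]
    refine (norm_integral_le_of_norm_le_const (C := D) (Eventually.of_forall fun p => ?_)).trans (by simp)
    exact (Real.norm_eq_abs _).trans_le (hA p.1 p.2)
  rw [← h, show S.avgRep n A + Y + S.avgRep n J - Y = S.avgRep n A + S.avgRep n J by ring]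
  exact (abs_add_le _ _).trans (add_le_add hA' hJ)

/-- The loop identity of a finite system, up to the derivative of the test function and the
perturbation. -/
theorem sph_loop_fin (hf : Pot f B) (hd : BdD 1 f) (N : ℕ) {lam : ℝ} (hl : 0 ≤ lam) (x : Fin P → ℝ)
    {φ : ℝ → ℝ} (hφ : ContDiff ℝ 1 φ) {D : ℝ} (hD : ∀ t, |t| ≤ 1 → |φ t| ≤ D ∧ |deriv φ t| ≤ D) :
    |(N : ℝ) * (sphSys hf N lam 0 x).avgRep 2 (fun _ r => ovl2 r * φ (ovl2 r)) -
      lam * (((sphSys hf N lam 0 x).tiltF hf).avgRep 2 (fun p (r : Fin 2 → Sph (N + 1)) =>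
          φ ⟪(r 0 : Sp (N + 1)), (r 1 : Sp (N + 1))⟫ * (1 - ⟪(r 0 : Sp (N + 1)), (r 1 : Sp (N + 1))⟫ ^ 2) *
            (deriv f ⟪p.2, (r 0 : Sp (N + 1))⟫ * deriv f ⟪p.2, (r 1 : Sp (N + 1))⟫)) -
        2 * ((sphSys hf N lam 0 x).tiltF hf).avgRep 3 (fun p (r : Fin 3 → Sph (N + 1)) =>
          φ ⟪(r 0 : Sp (N + 1)), (r 1 : Sp (N + 1))⟫ *
              (⟪(r 1 : Sp (N + 1)), (r 2 : Sp (N + 1))⟫ -
                ⟪(r 0 : Sp (N + 1)), (r 1 : Sp (N + 1))⟫ * ⟪(r 0 : Sp (N + 1)), (r 2 : Sp (N + 1))⟫) *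
            (deriv f ⟪p.2, (r 0 : Sp (N + 1))⟫ * deriv f ⟪p.2, (r 2 : Sp (N + 1))⟫)))| ≤
      D + 4 * strength N ^ 2 * D * (∑ q, |x q| * ((q : ℕ) + 1)) * ∑ q, |x q| := by
  obtain ⟨iP, eP⟩ := avgRep_patTang hf hd N hl x hφ.continuous fun t ht => (hD t ht).1
  obtain ⟨iJ, bJ⟩ := avgRep_pertTang hf N lam x hφ.continuous fun t ht => (hD t ht).1
  have hD0 : 0 ≤ D := (abs_nonneg _).trans (hD 0 (by simp)).1
  set TA : (Fin 2 → Sph (N + 1)) → ℝ := fun r => deriv φ (ovl2 r) * (1 - ovl2 r ^ 2) with hTA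
  have hTAb : ∀ r, |TA r| ≤ D := fun r => by
    rw [hTA, abs_mul]
    refine (mul_le_mul (hD _ (abs_ovl2_le r)).2 ?_ (abs_nonneg _) hD0).trans_eq (mul_one D)
    have h1 : ovl2 r ^ 2 ≤ 1 := by
      rw [← sq_abs]; exact pow_le_one₀ (abs_nonneg _) (abs_ovl2_le r)
    rw [abs_of_nonneg (by linarith)]
    linarith [sq_nonneg (ovl2 r)]
  have iA : Integrable (Function.uncurry fun (_ : (sphSys hf N lam 0 x).Ω) r => TA r)
      ((sphSys hf N lam 0 x).repLaw 2) :=
    (sphSys hf N lam 0 x).integrable_repLaw (Θ := fun _ r => TA r)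
      ((((measurable_deriv φ).comp continuous_ovl2.measurable).mul
        ((continuous_ovl2.measurable.pow_const 2).const_sub 1)).comp measurable_snd) fun _ r => hTAb r
  exact abs_avgRep_split (sphSys hf N lam 0 x) iA iP iJ (rot_avgRep hf hd N lam x hφ) eP
    (fun _ r => hTAb r) bJ

end Vale.Agent.P157F
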